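import Vale.Agent.P167.H135.Q.Bump

/-!
# P167, general `q`, MIX > 1: from bumps to the open state of a half box

`MIX1B`: the closed state of a full box centred on a free flat side (the side with a bump).
`MIX2`: the open state of a half box at a free flat side.
-/

namespace Vale.Agent.P167.H135.Q

open Finset Relation Filter Topology Vale.Agent.P167.FK
open Vale.Agent.P167.H259 (f_markov f_fkg f_comp f_comp2)
open Vale.Agent.P167.FKA (Zq_pos Loc Ex_congr Ex_mono cf_out)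
open Vale.Agent.P167.H519 (cf_in)
open Vale.Agent.P167.QM (HB ow Cl)

/-- All the squares of `S` are open. -/
def Opn (S : Finset (ℤ × ℤ)) : Set Cfg := {ω | ∀ v ∈ S, ω v = true}

/-- MIX > 1 for the closed state of a bump. -/
def MIX1B (Q : ℝ) : Prop := ∃ c C : ℝ, 0 < c ∧ 0 < C ∧ ∀ (z : ℤ × ℤ) (d R : ℤ),
  Even (z.1 + z.2) → 1 ≤ d → d ≤ R →
    (1 - C * ((d : ℝ) / R) ^ (1 + c)) * Pr Q (HB z R ∪ Bq z d) eta0 (Cl (Bq z d)) ≤
      Pr Q (HB z R ∪ Bq z d) (ow z R) (Cl (Bq z d))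

/-- **MIX > 1 at a free flat side**, the open state. -/
def MIX2 (Q : ℝ) : Prop := ∃ (K : ℤ) (c C : ℝ), 1 ≤ K ∧ 0 < c ∧ 0 < C ∧
  ∀ (z : ℤ × ℤ) (d R : ℤ), Even (z.1 + z.2) → 1 ≤ d → K * d ≤ R →
    Pr Q (HB z R) (ow z R) (Opn (HB z d)) ≤
      (1 + C * ((d : ℝ) / R) ^ (1 + c)) * Pr Q (HB z R) eta0 (Opn (HB z d))

theorem BT_self (S : Finset (ℤ × ℤ)) : BT S S = Opn S := by
  ext ω
  simp only [BT, Opn, Set.mem_ofPred_eq]
  constructor
  · intro h v hv
    rw [h v hv]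
    exact decide_eq_true hv
  · intro h v hv
    rw [h v hv]
    exact (decide_eq_true hv).symm

theorem good_ow (z : ℤ × ℤ) (R : ℤ) : Good (ow z R) := f_good.1 _ _ _ f_good.2.2

theorem ow_in {z : ℤ × ℤ} {R : ℤ} {v : ℤ × ℤ} (h : v ∈ Bq z R) : ow z R v = false := by
  unfold ow
  rw [cf_in h]
  simp

/-- **The bump step.** -/
theorem mix2_of_bump {Q : ℝ} (hQ : 1 ≤ Q) (h : RSW Q) (hB : MIX1B Q) : MIX2 Q := by
  have hQ0 : 0 < Q := by linarith
  obtain ⟨α, C0, hα, hC0, -, hdec⟩ := FKA.arm_fk hQ h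
  obtain ⟨c, C, hc, hC, hmix⟩ := hB
  -- the scale of the circuit
  obtain ⟨M, hM1, hM⟩ : ∃ M : ℤ, 2 ≤ M ∧ C0 * (1 / (M : ℝ)) ^ α ≤ 1 / 2 := by
    have h3 : Tendsto (fun x : ℝ => C0 * (1 / x) ^ α) atTop (𝓝 (C0 * 0)) := by
      refine Tendsto.const_mul C0 ?_
      have := tendsto_rpow_neg_atTop hα
      refine this.congr' ?_
      filter_upwards [eventually_gt_atTop 0] with x hx
      rw [Real.rpow_neg hx.le, one_div, Real.inv_rpow hx.le]
    rw [mul_zero] at h3
    have h4 := (tendsto_order.1 h3).2 (1 / 2) (by norm_num)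
    have h5 := h4.and (eventually_ge_atTop 2)
    obtain ⟨N, hN⟩ := (tendsto_intCast_atTop_atTop (R := ℝ)).eventually h5 |>.exists
    exact ⟨N, by exact_mod_cast hN.2, hN.1.le⟩
  have hM0 : (0 : ℝ) < M := by exact_mod_cast (by omega : (0 : ℤ) < M)
  -- the scale of smallness
  obtain ⟨K, hK1, hK⟩ : ∃ K : ℤ, M ≤ K ∧ ∀ x : ℝ, 0 ≤ x → x ≤ M / (K : ℝ) →
      C * x ^ (1 + c) ≤ 1 / 2 := by
    have h3 : Tendsto (fun x : ℝ => C * ((M : ℝ) / x) ^ (1 + c)) atTop (𝓝 (C * 0)) := by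
      refine Tendsto.const_mul C ?_
      have h4 : Tendsto (fun x : ℝ => (M : ℝ) / x) atTop (𝓝 0) := tendsto_const_nhds.div_atTop
        tendsto_id
      have h5 := h4.rpow_const (p := 1 + c) (Or.inr (by linarith))
      rwa [Real.zero_rpow (by linarith)] at h5
    rw [mul_zero] at h3
    have h4 := (tendsto_order.1 h3).2 (1 / 2) (by norm_num)
    have h5 := h4.and (eventually_ge_atTop (M : ℝ))
    obtain ⟨N, hN⟩ := (tendsto_intCast_atTop_atTop (R := ℝ)).eventually h5 |>.exists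
    refine ⟨N, by exact_mod_cast hN.2, fun x hx hxN => ?_⟩
    exact (mul_le_mul_of_nonneg_left (Real.rpow_le_rpow hx hxN (by linarith)) hC.le).trans hN.1.le
  refine ⟨K, c, 6 * (C * (M : ℝ) ^ (1 + c)), by omega, hc, by positivity, ?_⟩
  intro z d R hz hd hR
  have hdR : (0 : ℝ) < d := by exact_mod_cast (by omega : (0 : ℤ) < d)
  have hMd : M * d ≤ R := by nlinarith
  have hMd1 : 1 ≤ M * d := by nlinarith
  have hRR : (0 : ℝ) < R := by exact_mod_cast (by omega : (0 : ℤ) < R)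
  have hdM : d ≤ M * d := by nlinarith
  set ε : ℝ := C * (((M * d : ℤ) : ℝ) / R) ^ (1 + c) with hε
  have hε0 : 0 ≤ ε := by positivity
  have hK0 : (0 : ℝ) < K := by exact_mod_cast (by omega : (0 : ℤ) < K)
  have hε1 : ε ≤ 1 / 2 := by
    refine hK _ (by positivity) ?_
    rw [div_le_div_iff₀ hRR hK0]
    have : (K : ℝ) * d ≤ R := by exact_mod_cast hR
    push_cast
    nlinarith
  have hε2 : 6 * ε = 6 * (C * (M : ℝ) ^ (1 + c)) * ((d : ℝ) / R) ^ (1 + c) := by
    rw [hε]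
    push_cast
    rw [mul_div_assoc, Real.mul_rpow hM0.le (by positivity)]
    ring
  rw [← hε2, ← BT_self]
  set E := HB z R ∪ Bq z (M * d) with hE
  set L := E \ HB z R with hL
  have hLB : L ⊆ Bq z (M * d) := by
    intro v hv
    rw [hL, hE, Finset.mem_sdiff, Finset.mem_union] at hv
    exact hv.1.resolve_left hv.2
  have hEL : E \ L = HB z R := by
    rw [hL]
    exact Finset.sdiff_sdiff_eq_self Finset.subset_union_left
  have hHB : ∀ {r R : ℤ}, r ≤ R → HB z r ⊆ HB z R := by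
    intro r R hr v hv
    simp only [HB, mem_filter] at hv ⊢
    exact ⟨bq_mono hr hv.1, hv.2⟩
  have hmain := bump (Q := Q) (z := z) (b := HB z d) (E := E) (L := L) (r := d) (ρ := M * d)
    (ξ := eta0) (ξ' := ow z R) hQ hdM Finset.subset_union_right hLB (fun v hv => by
      simp only [HB, mem_filter] at hv; exact hv.1) ?_ f_good.2.1 (good_ow z R)
      (fun v hv => absurd hv (by simp [eta0])) (fun v hv => ow_in (bq_mono hMd (hLB hv)))
      ?_ hε0 hε1 ?_
  · rw [hEL] at hmain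
    exact hmain
  · rw [Finset.disjoint_left]
    intro v hv hvL
    rw [hL, Finset.mem_sdiff] at hvL
    exact hvL.2 (hHB (hdM.trans hMd) hv)
  · have h1 := hdec z d (M * d) E eta0 (fun _ => 1) hd hdM f_good.2.1
      (Finset.sdiff_subset.trans Finset.subset_union_right) (fun _ => zero_le_one)
      (fun _ _ _ => rfl)
    simp only [one_mul] at h1
    rw [FKA.Ex_const hQ0, mul_one] at h1
    have h2 : C0 * ((d : ℝ) / (M * d : ℤ)) ^ α ≤ 1 / 2 := by
      have : (d : ℝ) / (M * d : ℤ) = 1 / M := by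
        push_cast
        field_simp
      rw [this]
      exact hM
    have h3 : Pr Q E eta0 {ω | ¬ ArmDx z d (M * d) ω} = 1 - Pr Q E eta0 {ω | ArmDx z d (M * d) ω} :=
      FKA.Pr_compl hQ0 _
    have h4 : Pr Q E eta0 {ω | ArmDx z d (M * d) ω} ≤ 1 / 2 := h1.trans h2
    rw [h3]
    linarith
  · exact hmix z (M * d) R hz hMd1 hMd

end Vale.Agent.P167.H135.Q
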