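import Vale.Agent.P167.QM.Mix2
import Vale.Agent.P167.H135.Q.Mix2

/-!
# P167, general `q`, MIX > 1 for bumps

The scheme of `QM/Mix1`, `QM/Mix2` for full boxes centred on the side.
-/

namespace Vale.Agent.P167.H135.Q.BM

open Finset Vale.Agent.P167.FK Vale.Agent.P167.FKA Relation
open Vale.Agent.P145.FB (PStep PConn)
open Vale.Agent.P167.H259 (f_markov f_fkg f_comp f_comp2 Ex_out cf_cf PC_mono)
open Vale.Agent.P167.H519 (cf_in loc_mono)
open Vale.Agent.P167.QM (HB ow Cl Jt Adm cor transfer rtg_mono' comp_out Cl_up Cl_dn Cl_free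
  gg gg_le_one gg_anti lev mem_lev mem_Bq mem_HB ow_cf ow_out not_mem_of_ow HB_mono adm_blk inc_Jt
  one_term Tout zz Pr_Cl_pos loc_Cl dec_Cl M_ARM M_OPT)

variable {Q : ℝ}

/-- The half box of radius `R` with a bump of radius `d`. -/
noncomputable def EB (z : ℤ × ℤ) (R d : ℤ) : Finset (ℤ × ℤ) := HB z R ∪ Bq z d

/-- The free probability of the closed bump. -/
noncomputable def b0 (Q : ℝ) (z : ℤ × ℤ) (d R : ℤ) : ℝ := Pr Q (EB z R d) eta0 (Cl (Bq z d))

/-- The wired probability of the closed bump. -/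
noncomputable def b1 (Q : ℝ) (z : ℤ × ℤ) (d R : ℤ) : ℝ := Pr Q (EB z R d) (ow z R) (Cl (Bq z d))

theorem mem_EB {z v : ℤ × ℤ} {R d : ℤ} : v ∈ EB z R d ↔ (v ∈ Bq z R ∧ z.2 ≤ v.2) ∨ v ∈ Bq z d := by
  simp only [EB, Finset.mem_union, mem_HB]

theorem EB_mono {z : ℤ × ℤ} {r R d : ℤ} (h : r ≤ R) : EB z r d ⊆ EB z R d := by
  intro v hv
  rw [mem_EB] at *
  rcases hv with hv | hv
  · exact Or.inl ⟨bq_mono h hv.1, hv.2⟩
  · exact Or.inr hv

theorem b0_anti (hQ : 1 ≤ Q) {z : ℤ × ℤ} {d R R' : ℤ} (h : R ≤ R') : b0 Q z d R' ≤ b0 Q z d R :=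
  Cl_free hQ (EB_mono h)

theorem b1_mono (hQ : 1 ≤ Q) {z : ℤ × ℤ} {d R R' : ℤ} (h : R ≤ R') : b1 Q z d R ≤ b1 Q z d R' := by
  refine Cl_dn hQ (EB_mono h) (good_ow _ _) (good_ow _ _) ?_ ?_
  · intro v _ hv
    refine ow_out fun hv' => not_mem_of_ow hv ?_
    exact bq_mono h hv'
  · intro v hv hv'
    refine ow_out fun h1 => hv' ?_
    rw [mem_EB] at *
    rcases hv with hv | hv
    · exact Or.inl ⟨h1, hv.2⟩
    · exact Or.inr hv

theorem b1_le_b0 (hQ : 1 ≤ Q) {z : ℤ × ℤ} {d R : ℤ} : b1 Q z d R ≤ b0 Q z d R := by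
  refine Cl_up hQ subset_rfl f_good.2.1 (good_ow _ _) fun v _ h => absurd h (by simp [eta0])

theorem b0_pos (hQ : 1 ≤ Q) {z : ℤ × ℤ} {d R : ℤ} : 0 < b0 Q z d R :=
  Pr_Cl_pos hQ Finset.subset_union_right _

theorem b1_nonneg (hQ : 1 ≤ Q) {z : ℤ × ℤ} {d R : ℤ} : 0 ≤ b1 Q z d R :=
  Pr_nonneg (by linarith) _

/-! ### Translations -/

theorem tr_image (p : ℤ × ℤ) (z : ℤ × ℤ) (R d : ℤ) :
    (EB z R d).image (fun v : ℤ × ℤ => (v.1 + p.1, v.2 + p.2)) = EB (z + p) R d := by
  ext v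
  rw [Finset.mem_image]
  constructor
  · rintro ⟨w, hw, rfl⟩
    rw [mem_EB, mem_Bq, mem_Bq] at *
    simp only [Prod.fst_add, Prod.snd_add]
    omega
  · intro hv
    refine ⟨(v.1 - p.1, v.2 - p.2), ?_, by simp⟩
    rw [mem_EB, mem_Bq, mem_Bq] at *
    simp only [Prod.fst_add, Prod.snd_add] at hv ⊢
    omega

theorem pr_tr' (hQ0 : 0 < Q) {p : ℤ × ℤ} (hp : Even (p.1 + p.2)) {z : ℤ × ℤ} {d R : ℤ}
    {η η' : Cfg} (hη : Good η) (h : ∀ v : ℤ × ℤ, η (v.1 + p.1, v.2 + p.2) = η' v) :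
    Pr Q (EB z R d) η' (Cl (Bq z d)) = Pr Q (EB (z + p) R d) η (Cl (Bq (z + p) d)) := by
  have h1 := (sy_tr p hp).2 Q (EB z R d) η ((Cl (Bq z d)).indicator 1) hQ0 hη
  have e1 : (η ∘ fun v : ℤ × ℤ => (v.1 + p.1, v.2 + p.2)) = η' := funext h
  rw [e1, tr_image] at h1
  refine h1.trans (Ex_congr fun S _ => ?_)
  by_cases h2 : cf (EB (z + p) R d) η S ∈ Cl (Bq (z + p) d)
  · rw [Set.indicator_of_mem h2, Set.indicator_of_mem]
    · rfl
    · intro v hv
      refine h2 _ ?_
      rw [mem_Bq] at *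
      simp only [Prod.fst_add, Prod.snd_add]
      omega
  · rw [Set.indicator_of_notMem h2, Set.indicator_of_notMem]
    intro h3
    refine h2 fun v hv => ?_
    have h4 := h3 (v.1 - p.1, v.2 - p.2) (by
      rw [mem_Bq] at *
      simp only [Prod.fst_add, Prod.snd_add] at hv ⊢
      omega)
    simpa using h4

theorem b0_tr (hQ0 : 0 < Q) {z : ℤ × ℤ} (hz : Even (z.1 + z.2)) {d R : ℤ} :
    b0 Q z d R = b0 Q 0 d R := by
  have h := pr_tr' (Q := Q) hQ0 hz (z := 0) (d := d) (R := R) (η := eta0) (η' := eta0)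
    f_good.2.1 (fun _ => rfl)
  rw [zero_add] at h
  exact h.symm

theorem b1_tr (hQ0 : 0 < Q) {z : ℤ × ℤ} (hz : Even (z.1 + z.2)) {d R : ℤ} :
    b1 Q z d R = b1 Q 0 d R := by
  have h := pr_tr' (Q := Q) hQ0 hz (z := 0) (d := d) (R := R) (η := ow z R) (η' := ow 0 R)
    (good_ow _ _) (fun v => by
      by_cases hv : v ∈ Bq 0 R
      · rw [QM.ow_in hv, QM.ow_in]
        rw [mem_Bq] at *
        simp only [Prod.fst_zero, Prod.snd_zero] at hv
        omega
      · rw [ow_out hv, ow_out]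
        rw [mem_Bq] at *
        simp only [Prod.fst_zero, Prod.snd_zero] at hv
        omega)
  rw [zero_add] at h
  exact h.symm

/-! ### Transfer -/

/-- The pair (`b` closed, `b` in the state `S`), everything closed outside. -/
theorem adm_free {U b S : Finset (ℤ × ℤ)} :
    Adm (U \ b) eta0 (cf U eta0 S) ∅ (cor b) where
  le v _ h := absurd h (by simp [eta0])
  out v hv h := by
    by_cases hvb : v ∈ b
    · exact Or.inr fun u hu hvu => ⟨hu, v, hvb, hvu⟩
    · have h1 : v ∉ U := fun h' => hv (Finset.mem_sdiff.2 ⟨h', hvb⟩)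
      rw [cf_out h1] at h
      exact absurd h (by simp [eta0])
  even u hu := hu.1
  opn v hv := absurd hv (Set.notMem_empty v)
  con v hv := absurd hv (Set.notMem_empty v)

/-- **Transfer for a bump.** -/
theorem bT (hQ : 1 ≤ Q) {N : ℤ} {U b : Finset (ℤ × ℤ)} {z z' : ℤ × ℤ} {d r : ℤ} {η : Cfg}
    {W : Set (ℤ × ℤ)} (hη : Good η) (hU : U ⊆ Bq 0 N) (hB : EB z r d ⊆ U \ b)
    (hadm : ∀ S ⊆ U, Adm (U \ b) η (cf U η S) W (cor b))
    (hlow : ∀ v ∈ Bq z r, v ∉ EB z r d → v ∉ U ∧ η v = false)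
    (hfar : ∀ u ∈ cor (EB z r d), r ≤ nm (u - z')) {a : ℝ}
    (ha : Pr Q U η {ω | Jt (Bq 0 N) {u | r ≤ nm (u - z')} (cor b) ω} ≤ a) :
    Pr Q (U \ b) η (Cl (Bq z d)) - Pr Q U η (Cl (Bq z d)) ≤ a * (b0 Q z d r - b1 Q z d r) := by
  have hQ0 : 0 < Q := by linarith
  set A := U \ b with hA
  set f : Cfg → ℝ := fun ω => - (Cl (Bq z d)).indicator 1 ω with hf
  have hfi : IncF f := (dec_Cl _).incF
  have hAU : A ⊆ U := Finset.sdiff_subset
  have hL : Loc (EB z r d) f := by
    intro ω ω' h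
    simp only [hf]
    rw [loc_Cl (Bq z d) ω ω' fun v hv => h v (Finset.mem_union_right _ hv)]
  -- one state of the block
  have key : ∀ S ⊆ U, Ex Q A (cf U η S) f - Ex Q A η f ≤
      Pr Q A (cf U η S) {ω | Jt A (cor (EB z r d)) (cor b) ω} *
        (- b1 Q z d r - - b0 Q z d r) := by
    intro S hS
    refine transfer hQ hfi hL hB hη (f_good.1 _ _ _ hη) (hadm S hS) ?_ ?_
    · intro S' hS'
      have h1 : b1 Q z d r ≤ Pr Q (EB z r d) (cf A (cf U η S) S') (Cl (Bq z d)) := by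
        have h2 := comp_out hQ (D := EB z r d) (η := cf A (cf U η S) S') (η' := ow z r)
          (dec_Cl (Bq z d)).incF (f_good.1 _ _ _ (f_good.1 _ _ _ hη)) (good_ow _ _)
          (fun v hv hvt => by
            refine ow_out fun h3 => ?_
            obtain ⟨h5, h6⟩ := hlow v h3 hv
            rw [cf_out (fun h7 => h5 (hAU h7)), cf_out h5, h6] at hvt
            exact absurd hvt (by simp))
        rw [Ex_neg, Ex_neg] at h2
        unfold b1 Pr
        linarith
      show Ex Q (EB z r d) (cf A (cf U η S) S') (fun ω => - (Cl (Bq z d)).indicator 1 ω) ≤ _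
      rw [Ex_neg]
      unfold Pr at h1
      linarith
    · have h1 : Pr Q A η (Cl (Bq z d)) ≤ b0 Q z d r :=
        Cl_up hQ hB f_good.2.1 hη fun v _ h => absurd h (by simp [eta0])
      show _ ≤ Ex Q A η (fun ω => - (Cl (Bq z d)).indicator 1 ω)
      rw [Ex_neg]
      unfold Pr at h1
      linarith
  have hD : 0 ≤ b0 Q z d r - b1 Q z d r := sub_nonneg.2 (b1_le_b0 hQ)
  have h1 : Ex Q U η f - Ex Q A η f ≤ Pr Q U η {ω | Jt A (cor (EB z r d)) (cor b) ω} *
      (b0 Q z d r - b1 Q z d r) := by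
    have h2 : Ex Q U η f = Ex Q U η (fun ω => Ex Q A ω f) :=
      f_markov Q A U η f hQ0 hAU hη
    have h3 : Pr Q U η {ω | Jt A (cor (EB z r d)) (cor b) ω} =
        Ex Q U η (fun ω => Pr Q A ω {ω | Jt A (cor (EB z r d)) (cor b) ω}) :=
      f_markov Q A U η _ hQ0 hAU hη
    have h4 : Ex Q U η f - Ex Q A η f = Ex Q U η (fun ω => Ex Q A ω f - Ex Q A η f) := by
      rw [Ex_sub, ← h2, Ex_const hQ0]
    rw [h4, h3, mul_comm, ← Ex_mul_left]
    refine Ex_mono hQ0 fun S hS => ?_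
    refine (key S hS).trans (le_of_eq ?_)
    ring
  have h2 : Pr Q U η {ω | Jt A (cor (EB z r d)) (cor b) ω} ≤ a := by
    refine le_trans (Pr_mono hQ0 ?_) ha
    rintro ω ⟨s, hs, u, hu, h3⟩
    exact ⟨s, hs, u, hfar u hu, rtg_mono' (F := Op A ω)
      (F' := Op (Bq 0 N) ω) (fun v hv => ⟨hU (hAU hv.1), hv.2⟩) h3⟩
  have h3 : Ex Q U η f - Ex Q A η f = Pr Q A η (Cl (Bq z d)) - Pr Q U η (Cl (Bq z d)) := by
    simp only [hf]
    rw [Ex_neg, Ex_neg]
    unfold Pr
    ring
  rw [← h3]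
  exact h1.trans (mul_le_mul_of_nonneg_right h2 hD)

/-! ### The row of bumps -/

/-- The union of the boxes with indices in `J`. -/
noncomputable def BS (r d : ℤ) (j : ℕ) (J : Finset ℕ) : Finset (ℤ × ℤ) :=
  J.biUnion fun l => Bq (zz r d j l) d

theorem mem_BS {r d : ℤ} {j : ℕ} {J : Finset ℕ} {v : ℤ × ℤ} :
    v ∈ BS r d j J ↔ ∃ l ∈ J, v ∈ Bq (zz r d j l) d := by
  simp only [BS, Finset.mem_biUnion]

/-- The domain with `m` bumps after closing the boxes with indices in `J`. -/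
noncomputable def UJ (N r d : ℤ) (j m : ℕ) (J : Finset ℕ) : Finset (ℤ × ℤ) :=
  (lev N (2 * d * j) ∪ BS r d j (Finset.range m)) \ BS r d j J

theorem UJ_insert (N r d : ℤ) (j m : ℕ) (J : Finset ℕ) (l : ℕ) :
    UJ N r d j m (insert l J) = UJ N r d j m J \ Bq (zz r d j l) d := by
  ext v
  simp only [UJ, Finset.mem_sdiff, mem_BS, Finset.mem_insert, exists_eq_or_imp, not_or]
  tauto

section

variable {Λ n d r : ℤ} {k m : ℕ}

theorem num0 (hd : 1 ≤ d) (hdr : d ≤ r) (hk : 2 * d * k ≤ n)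
    (hm : 2 * r * m ≤ n) {i j : ℕ} (hi : i < m) (hj : j < k) :
    2 * r * i + 2 * r ≤ n ∧ 2 * d * j + 2 * d ≤ n ∧ 0 ≤ 2 * r * i ∧ 0 ≤ 2 * d * j := by
  have hi' : (i : ℤ) + 1 ≤ m := by exact_mod_cast hi
  have hj' : (j : ℤ) + 1 ≤ k := by exact_mod_cast hj
  have h0 : (0 : ℤ) ≤ i := by positivity
  have h0' : (0 : ℤ) ≤ j := by positivity
  refine ⟨by nlinarith, by nlinarith, ?_, ?_⟩
  · nlinarith [mul_nonneg (show (0 : ℤ) ≤ r by omega) h0]
  · nlinarith [mul_nonneg (show (0 : ℤ) ≤ d by omega) h0']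

theorem sep_i (hd : 1 ≤ d) (hdr : d ≤ r) {i l : ℕ} (h : l ≠ i) :
    2 * r * (l : ℤ) + 2 * r ≤ 2 * r * i ∨ 2 * r * (i : ℤ) + 2 * r ≤ 2 * r * l := by
  rcases lt_or_gt_of_ne h with h | h
  · left
    have : (l : ℤ) + 1 ≤ i := by exact_mod_cast h
    nlinarith
  · right
    have : (i : ℤ) + 1 ≤ l := by exact_mod_cast h
    nlinarith

theorem UJ_sub (hΛ : 2 ≤ Λ) (hd : 1 ≤ d) (hdr : d ≤ r) (hr : r ≤ n) (hk : 2 * d * k ≤ n)
    (hm : 2 * r * m ≤ n) {j : ℕ} (hj : j < k) (J : Finset ℕ) :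
    UJ (Λ * n) r d j m J ⊆ Bq 0 (Λ * n) := by
  intro v hv
  have h1 := (Finset.mem_sdiff.1 hv).1
  rw [Finset.mem_union, mem_lev, mem_BS] at h1
  rcases h1 with h1 | ⟨l, hl, h1⟩
  · exact h1.1
  · obtain ⟨e2, e3, e4, e5⟩ := num0 hd hdr hk hm (Finset.mem_range.1 hl) hj
    have e1 : 2 * n ≤ Λ * n := by nlinarith
    rw [mem_Bq] at h1 ⊢
    simp only [zz, Prod.fst_zero, Prod.snd_zero] at h1 ⊢
    omega

theorem EB_sub (hΛ : 2 ≤ Λ) (hd : 1 ≤ d) (hdr : d ≤ r) (hr : r ≤ n) (hk : 2 * d * k ≤ n)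
    (hm : 2 * r * m ≤ n) {i j : ℕ} (hi : i < m) (hj : j < k) {J : Finset ℕ} (hJ : i ∉ J) :
    EB (zz r d j i) r d ⊆ UJ (Λ * n) r d j m J := by
  obtain ⟨e2, e3, e4, e5⟩ := num0 hd hdr hk hm hi hj
  have e1 : 2 * n ≤ Λ * n := by nlinarith
  intro v hv
  rw [mem_EB] at hv
  refine Finset.mem_sdiff.2 ⟨?_, fun h => ?_⟩
  · rw [Finset.mem_union, mem_lev, mem_BS]
    rcases hv with hv | hv
    · left
      rw [mem_Bq] at hv ⊢
      simp only [zz, Prod.fst_zero, Prod.snd_zero] at hv ⊢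
      omega
    · exact Or.inr ⟨i, Finset.mem_range.2 hi, hv⟩
  · obtain ⟨l, hl, h1⟩ := mem_BS.1 h
    have hli : l ≠ i := fun h => hJ (h ▸ hl)
    have e6 := sep_i hd hdr hli
    rw [mem_Bq, mem_Bq] at hv
    rw [mem_Bq] at h1
    simp only [zz] at hv h1
    omega

/-- Growth of the probability when boxes are closed. -/
theorem grow (hQ : 1 ≤ Q) (hΛ : 2 ≤ Λ) (hd : 1 ≤ d) (hdr : d ≤ r) (hr : r ≤ n)
    (hk : 2 * d * k ≤ n) (hm : 2 * r * m ≤ n) {a : ℝ}
    (ha : ∀ (U : Finset (ℤ × ℤ)) (z' : ℤ × ℤ), U ⊆ Bq 0 (Λ * n) → Bq z' r ⊆ Bq 0 (Λ * n) →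
      Pr Q U (ow 0 (Λ * n)) {ω | Jt (Bq 0 (Λ * n)) {u | r ≤ nm (u - z')} (cor (Bq z' d)) ω} ≤ a)
    {i j : ℕ} (hi : i < m) (hj : j < k) {η : Cfg} (hη : η = eta0 ∨ η = ow 0 (Λ * n))
    {J0 : Finset ℕ} : ∀ J1 : Finset ℕ, Disjoint J0 J1 → J1 ⊆ Finset.range m →
    i ∉ J0 → i ∉ J1 →
    Pr Q (UJ (Λ * n) r d j m (J0 ∪ J1)) η (Cl (Bq (zz r d j i) d)) ≤
      Pr Q (UJ (Λ * n) r d j m J0) η (Cl (Bq (zz r d j i) d)) +
        J1.card * (a * (b0 Q 0 d r - b1 Q 0 d r)) := by
  have hQ0 : 0 < Q := by linarith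
  obtain ⟨e2, e3, e4, e5⟩ := num0 hd hdr hk hm hi hj
  have e1 : 2 * n ≤ Λ * n := by nlinarith
  have hze : Even ((zz r d j i).1 + (zz r d j i).2) := by
    simp only [zz]
    exact ⟨r * i + d * j, by ring⟩
  have hηg : Good η := by
    rcases hη with h | h
    · rw [h]; exact f_good.2.1
    · rw [h]; exact good_ow _ _
  intro J1
  induction J1 using Finset.induction_on with
  | empty => intro _ _ _ _; simp
  | insert l J1 hl ih =>
    intro hdis hsub h0 h1
    have hli : l ≠ i := fun h => h1 (h ▸ Finset.mem_insert_self l J1)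
    have hlm : l < m := Finset.mem_range.1 (hsub (Finset.mem_insert_self l J1))
    have hi1 : i ∉ J1 := fun h => h1 (Finset.mem_insert_of_mem h)
    have hl0 : l ∉ J0 := fun h => (Finset.disjoint_left.1 hdis) h (Finset.mem_insert_self l J1)
    have h2 := ih (hdis.mono_right (Finset.subset_insert l J1))
      ((Finset.subset_insert l J1).trans hsub) h0 hi1
    have hnot : i ∉ J0 ∪ J1 := by
      rw [Finset.mem_union]; tauto
    obtain ⟨f2, f3, f4, f5⟩ := num0 hd hdr hk hm hlm hj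
    have hUs := UJ_sub (Λ := Λ) (m := m) hΛ hd hdr hr hk hm hj (J0 ∪ J1)
    have hsep := sep_i hd hdr hli
    have hbox : Bq (zz r d j l) r ⊆ Bq 0 (Λ * n) := by
      intro v hv
      rw [mem_Bq] at hv ⊢
      simp only [zz, Prod.fst_zero, Prod.snd_zero] at hv ⊢
      omega
    have h3 : Pr Q (UJ (Λ * n) r d j m (J0 ∪ J1) \ Bq (zz r d j l) d) η
        (Cl (Bq (zz r d j i) d)) - Pr Q (UJ (Λ * n) r d j m (J0 ∪ J1)) η
        (Cl (Bq (zz r d j i) d)) ≤
        a * (b0 Q (zz r d j i) d r - b1 Q (zz r d j i) d r) := by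
      have hB : EB (zz r d j i) r d ⊆ UJ (Λ * n) r d j m (J0 ∪ J1) \ Bq (zz r d j l) d := by
        rw [← UJ_insert]
        refine EB_sub hΛ hd hdr hr hk hm hi hj ?_
        rw [Finset.mem_insert, not_or]
        exact ⟨fun h => hli h.symm, hnot⟩
      have hlow : ∀ v ∈ Bq (zz r d j i) r, v ∉ EB (zz r d j i) r d →
          v ∉ UJ (Λ * n) r d j m (J0 ∪ J1) ∧ v ∈ Bq 0 (Λ * n) := by
        intro v hv hvE
        rw [mem_EB, not_or, not_and] at hvE
        have hv2 : v.2 < (zz r d j i).2 := not_le.1 (hvE.1 hv)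
        have hv3 := hvE.2
        rw [mem_Bq] at hv hv3
        simp only [zz] at hv hv2 hv3
        refine ⟨fun h => ?_, ?_⟩
        · have h4 := (Finset.mem_sdiff.1 h).1
          rw [Finset.mem_union, mem_lev, mem_BS] at h4
          rcases h4 with h4 | ⟨l', hl', h4⟩
          · omega
          · rw [mem_Bq] at h4
            simp only [zz] at h4
            by_cases hl'i : l' = i
            · rw [hl'i] at h4
              exact hv3 h4
            · have e6 := sep_i hd hdr hl'i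
              omega
        · rw [mem_Bq]
          simp only [Prod.fst_zero, Prod.snd_zero]
          omega
      have hfar : ∀ u ∈ cor (EB (zz r d j i) r d), r ≤ nm (u - zz r d j l) := by
        rintro u ⟨-, v, hv, hvu⟩
        rw [mem_EB, mem_Bq, mem_Bq] at hv
        simp only [zz] at hv ⊢
        obtain ⟨h4, h5⟩ := hvu
        rw [le_nm_iff]
        simp only [Prod.fst_sub, Prod.snd_sub]
        omega
      have hJ := ha _ (zz r d j l) hUs hbox
      rcases hη with h | h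
      · subst h
        refine bT hQ hηg hUs hB (fun S _ => adm_free)
          (fun v hv hvE => ⟨(hlow v hv hvE).1, rfl⟩) hfar (le_trans ?_ hJ)
        exact comp_out hQ (inc_Jt _ _ _).incF f_good.2.1 (good_ow _ _)
          fun v _ h => absurd h (by simp [eta0])
      · subst h
        exact bT hQ hηg hUs hB (fun S _ => adm_blk hUs)
          (fun v hv hvE => ⟨(hlow v hv hvE).1, QM.ow_in (hlow v hv hvE).2⟩) hfar hJ
    rw [b0_tr hQ0 hze, b1_tr hQ0 hze, ← UJ_insert] at h3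
    rw [Finset.union_insert, Finset.card_insert_of_notMem hl]
    push_cast
    linarith

/-- **The basic inequality.** -/
theorem basic (hQ : 1 ≤ Q) (hΛ : 2 ≤ Λ) (hd : 1 ≤ d) (hdr : d ≤ r) (hr : r ≤ n)
    (hk : 2 * d * k ≤ n) (hm : 2 * r * m ≤ n) {c0 a e : ℝ} (hc0 : 0 < c0)
    (hc : ∀ U : Finset (ℤ × ℤ), U ⊆ Bq 0 (Λ * n) → c0 ≤ gg Q (Λ * n) n U)
    (ha0 : 0 ≤ a)
    (ha : ∀ (U : Finset (ℤ × ℤ)) (z' : ℤ × ℤ), U ⊆ Bq 0 (Λ * n) → Bq z' r ⊆ Bq 0 (Λ * n) →
      Pr Q U (ow 0 (Λ * n)) {ω | Jt (Bq 0 (Λ * n)) {u | r ≤ nm (u - z')} (cor (Bq z' d)) ω} ≤ a)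
    (he : (m - 1) * (a * (b0 Q 0 d r - b1 Q 0 d r)) ≤ e) (he' : e < b0 Q 0 d (2 * (Λ * n))) :
    (k : ℝ) * (m * (c0 * (1 - (b1 Q 0 d (2 * (Λ * n)) + e) / (b0 Q 0 d (2 * (Λ * n)) - e)))) ≤
      1 := by
  have hQ0 : 0 < Q := by linarith
  have hn : 1 ≤ n := by omega
  set P0 := b0 Q 0 d (2 * (Λ * n)) with hP0
  set P1 := b1 Q 0 d (2 * (Λ * n)) with hP1
  set Dd := b0 Q 0 d r - b1 Q 0 d r with hDd
  have hDd0 : 0 ≤ Dd := sub_nonneg.2 (b1_le_b0 hQ)
  set N := Λ * n with hN
  have e1 : 2 * n ≤ Λ * n := by nlinarith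
  set s : ℝ := c0 * (1 - (P1 + e) / (P0 - e)) with hs
  -- one block
  have hblk : ∀ i j : ℕ, i < m → j < k →
      s ≤ gg Q N n (UJ N r d j m (Finset.range (i + 1))) -
        gg Q N n (UJ N r d j m (Finset.range i)) := by
    intro i j hi hj
    obtain ⟨e2, e3, e4, e5⟩ := num0 hd hdr hk hm hi hj
    have hsubU := UJ_sub (Λ := Λ) (m := m) hΛ hd hdr hr hk hm hj (Finset.range i)
    have hsucc : UJ N r d j m (Finset.range (i + 1)) =
        UJ N r d j m (Finset.range i) \ Bq (zz r d j i) d := by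
      rw [Finset.range_add_one, UJ_insert]
    have hsub : Bq (zz r d j i) d ⊆ UJ N r d j m (Finset.range i) :=
      Finset.subset_union_right.trans
        (EB_sub hΛ hd hdr hr hk hm hi hj (by simp))
    have hcor : ∀ u ∈ cor (Bq (zz r d j i) d), nm u ≤ n := by
      rintro u ⟨-, v, hv, hvu⟩
      rw [mem_Bq] at hv
      simp only [zz] at hv
      obtain ⟨h1, h2⟩ := hvu
      rw [nm_le_iff]
      omega
    have h1 := one_term hQ (N := N) (n := n) hsubU hsub hcor
    rw [← hsucc] at h1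
    have hze : Even ((zz r d j i).1 + (zz r d j i).2) := by
      simp only [zz]
      exact ⟨r * i + d * j, by ring⟩
    -- the wired probability
    have h2 : Pr Q (UJ N r d j m (Finset.range i)) (ow 0 N) (Cl (Bq (zz r d j i) d)) ≤ P1 + e := by
      have g1 := grow hQ hΛ hd hdr hr hk hm ha hi hj (η := ow 0 N) (Or.inr rfl) (J0 := ∅)
        (Finset.range i) (Finset.disjoint_empty_left _)
        (Finset.range_subset_range.2 hi.le) (by simp) (by simp)
      rw [Finset.empty_union, Finset.card_range] at g1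
      have g2 : Pr Q (UJ N r d j m ∅) (ow 0 N) (Cl (Bq (zz r d j i) d)) ≤ P1 := by
        have g3 : Pr Q (UJ N r d j m ∅) (ow 0 N) (Cl (Bq (zz r d j i) d)) ≤
            Pr Q (lev N (2 * d * j) ∪ Bq (zz r d j i) d) (ow 0 N) (Cl (Bq (zz r d j i) d)) := by
          refine Cl_up hQ ?_ (good_ow _ _) (good_ow _ _) fun v _ hv => ⟨fun h' =>
            not_mem_of_ow hv (UJ_sub (Λ := Λ) (m := m) hΛ hd hdr hr hk hm hj ∅ h'), hv⟩
          intro v hv
          rw [Finset.mem_union] at hv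
          refine Finset.mem_sdiff.2 ⟨?_, by simp [BS]⟩
          rw [Finset.mem_union, mem_BS]
          rcases hv with hv | hv
          · exact Or.inl hv
          · exact Or.inr ⟨i, Finset.mem_range.2 hi, hv⟩
        refine g3.trans ?_
        rw [hP1, ← b1_tr hQ0 hze]
        refine Cl_dn hQ (U' := EB (zz r d j i) (2 * (Λ * n)) d) ?_ (good_ow _ _)
          (good_ow _ _) ?_ ?_
        · intro v hv
          rw [Finset.mem_union, mem_lev] at hv
          rw [mem_EB]
          rcases hv with hv | hv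
          · left
            rw [mem_Bq] at hv ⊢
            simp only [zz, Prod.fst_zero, Prod.snd_zero] at hv ⊢
            omega
          · exact Or.inr hv
        · intro v _ hv
          refine ow_out fun h => not_mem_of_ow hv ?_
          rw [mem_Bq] at h ⊢
          simp only [zz, Prod.fst_zero, Prod.snd_zero] at h ⊢
          omega
        · intro v hv hv'
          refine ow_out fun h => hv' ?_
          rw [Finset.mem_union, mem_lev]
          rw [mem_EB] at hv
          rcases hv with hv | hv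
          · exact Or.inl ⟨h, hv.2⟩
          · exact Or.inr hv
      have g3 : (i : ℝ) * (a * Dd) ≤ e := by
        have g4 : (i : ℝ) ≤ m - 1 := by
          have : (i : ℝ) + 1 ≤ m := by exact_mod_cast hi
          linarith
        exact (mul_le_mul_of_nonneg_right g4 (mul_nonneg ha0 hDd0)).trans he
      linarith
    -- the free probability
    have h3 : P0 - e ≤ Pr Q (UJ N r d j m (Finset.range i)) eta0 (Cl (Bq (zz r d j i) d)) := by
      have g1 := grow hQ hΛ hd hdr hr hk hm ha hi hj (η := eta0) (Or.inl rfl)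
        (J0 := Finset.range i) ((Finset.range m) \ (Finset.range (i + 1))) ?_
        Finset.sdiff_subset (by simp) (by simp)
      · have g2 : P0 ≤ Pr Q (UJ N r d j m (Finset.range i ∪
            ((Finset.range m) \ (Finset.range (i + 1))))) eta0 (Cl (Bq (zz r d j i) d)) := by
          rw [hP0, ← b0_tr hQ0 hze]
          refine Cl_free hQ fun v hv => ?_
          obtain ⟨g3, g4⟩ := Finset.mem_sdiff.1 hv
          rw [mem_EB]
          rw [Finset.mem_union, mem_lev, mem_BS] at g3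
          rcases g3 with g3 | ⟨l, hl, g3⟩
          · left
            rw [mem_Bq] at g3 ⊢
            simp only [zz, Prod.fst_zero, Prod.snd_zero] at g3 ⊢
            omega
          · right
            by_cases hli : l = i
            · rw [← hli]; exact g3
            · exfalso
              refine g4 (mem_BS.2 ⟨l, ?_, g3⟩)
              rw [Finset.mem_union, Finset.mem_sdiff, Finset.mem_range, Finset.mem_range,
                Finset.mem_range]
              rw [Finset.mem_range] at hl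
              omega
        have g3 : (((Finset.range m) \ (Finset.range (i + 1))).card : ℝ) * (a * Dd) ≤ e := by
          have g4 : (((Finset.range m) \ (Finset.range (i + 1))).card : ℝ) ≤ m - 1 := by
            have g5 : ((Finset.range m) \ (Finset.range (i + 1))).card + 1 ≤ m := by
              rw [Finset.card_sdiff_of_subset (Finset.range_subset_range.2 (by omega))]
              rw [Finset.card_range, Finset.card_range]
              omega
            have : ((((Finset.range m) \ (Finset.range (i + 1))).card : ℝ)) + 1 ≤ m := by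
              exact_mod_cast g5
            linarith
          exact (mul_le_mul_of_nonneg_right g4 (mul_nonneg ha0 hDd0)).trans he
        linarith
      · rw [Finset.disjoint_left]
        intro l hl h'
        rw [Finset.mem_sdiff, Finset.mem_range, Finset.mem_range] at h'
        rw [Finset.mem_range] at hl
        omega
    have h4 : Pr Q (UJ N r d j m (Finset.range i)) (ow 0 N) (Cl (Bq (zz r d j i) d)) ≤
        Pr Q (UJ N r d j m (Finset.range i)) eta0 (Cl (Bq (zz r d j i) d)) :=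
      Cl_up hQ subset_rfl f_good.2.1 (good_ow _ _) fun v _ h => absurd h (by simp [eta0])
    have h5 := hc _ hsubU
    have h6 := gg_anti hQ (n := n) (N := N) (U := UJ N r d j m (Finset.range (i + 1)))
      (U' := UJ N r d j m (Finset.range i)) (by rw [hsucc]; exact Finset.sdiff_subset) hsubU
    set g0 := gg Q N n (UJ N r d j m (Finset.range i))
    set g1 := gg Q N n (UJ N r d j m (Finset.range (i + 1)))
    set pw := Pr Q (UJ N r d j m (Finset.range i)) (ow 0 N) (Cl (Bq (zz r d j i) d))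
    set pf := Pr Q (UJ N r d j m (Finset.range i)) eta0 (Cl (Bq (zz r d j i) d))
    have hpe : 0 < P0 - e := by linarith
    have hpf : 0 < pf := hpe.trans_le h3
    have hpw0 : 0 ≤ pw := Pr_nonneg hQ0 _
    have h7 : c0 * (pf - pw) ≤ (g1 - g0) * pf := by
      have a1 : g0 * (pf - pw) ≤ (g1 - g0) * pw := by nlinarith
      have a2 : c0 * (pf - pw) ≤ g0 * (pf - pw) :=
        mul_le_mul_of_nonneg_right h5 (sub_nonneg.2 h4)
      have a3 : (g1 - g0) * pw ≤ (g1 - g0) * pf :=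
        mul_le_mul_of_nonneg_left h4 (sub_nonneg.2 h6)
      linarith
    have h8 : c0 * (1 - pw / pf) ≤ g1 - g0 := by
      have : c0 * (1 - pw / pf) = c0 * (pf - pw) / pf := by
        field_simp
      rw [this, div_le_iff₀ hpf]
      exact h7
    refine le_trans (mul_le_mul_of_nonneg_left (sub_le_sub_left ?_ 1) hc0.le) h8
    exact div_le_div₀ (hpw0.trans h2) h2 hpe h3
  -- one layer
  have hrow : ∀ j : ℕ, j < k → m * s ≤ gg Q N n (lev N (2 * d * (j + 1 : ℕ) - d)) -
      gg Q N n (lev N (2 * d * j - d)) := by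
    intro j hj
    have h1 : ∀ i : ℕ, i ≤ m → i * s ≤ gg Q N n (UJ N r d j m (Finset.range i)) -
        gg Q N n (UJ N r d j m (Finset.range 0)) := by
      intro i
      induction i with
      | zero => intro _; simp
      | succ i ih =>
        intro hi
        have h2 := ih (by omega)
        have h3 := hblk i j (by omega) hj
        push_cast
        linarith
    have h2 := h1 m le_rfl
    have h3 : gg Q N n (UJ N r d j m (Finset.range m)) ≤
        gg Q N n (lev N (2 * d * (j + 1 : ℕ) - d)) := by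
      refine gg_anti hQ (fun v hv => ?_) (UJ_sub hΛ hd hdr hr hk hm hj _)
      rw [mem_lev] at hv
      push_cast at hv
      refine Finset.mem_sdiff.2 ⟨?_, fun h => ?_⟩
      · rw [Finset.mem_union, mem_lev]
        exact Or.inl ⟨hv.1, by nlinarith⟩
      · obtain ⟨l, -, h4⟩ := mem_BS.1 h
        rw [mem_Bq] at h4
        simp only [zz] at h4
        nlinarith
    have h4 : gg Q N n (lev N (2 * d * j - d)) ≤ gg Q N n (UJ N r d j m (Finset.range 0)) := by
      refine gg_anti hQ (fun v hv => ?_) (fun v hv => (mem_lev.1 hv).1)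
      rw [mem_lev]
      refine ⟨UJ_sub (Λ := Λ) (m := m) hΛ hd hdr hr hk hm hj _ hv, ?_⟩
      have h5 := (Finset.mem_sdiff.1 hv).1
      rw [Finset.mem_union, mem_lev, mem_BS] at h5
      rcases h5 with h5 | ⟨l, -, h5⟩
      · omega
      · rw [mem_Bq] at h5
        simp only [zz] at h5
        omega
    linarith
  have hall : ∀ j : ℕ, j ≤ k → j * (m * s) ≤ gg Q N n (lev N (2 * d * j - d)) -
      gg Q N n (lev N (2 * d * (0 : ℕ) - d)) := by
    intro j
    induction j with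
    | zero => intro _; simp
    | succ j ih =>
      intro hj
      have h2 := ih (by omega)
      have h3 := hrow j (by omega)
      push_cast at h2 h3 ⊢
      linarith
  have h1 := hall k le_rfl
  have h2 := gg_le_one hQ N n (lev N (2 * d * k - d))
  have h3 := hc (lev N (2 * d * (0 : ℕ) - d)) (fun v hv => (mem_lev.1 hv).1)
  linarith

end

end Vale.Agent.P167.H135.Q.BM
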