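import Vale.Agent.P167.H135.Q.BMix

/-!
# P167, general `q`, MIX > 1 for bumps: conclusion

`mix1b : 1 ≤ Q → RSW Q → M_OPT → MIX1B Q` and `mix2 : 1 ≤ Q → RSW Q → M_OPT → MIX2 Q`.
-/

namespace Vale.Agent.P167.H135.Q.BM

open Finset Vale.Agent.P167.FK Vale.Agent.P167.FKA Relation
open Vale.Agent.P145.FB (PStep PConn)
open Vale.Agent.P167.H259 (f_markov f_fkg f_comp f_comp2)
open Vale.Agent.P167.QM (HB ow Cl Jt cor rtg_mono' gg gg_le_one Tout inc_Jt M_OPT Ex_up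
  not_mem_of_ow mem_Bq exists_k num1 num2 second_small)

variable {Q : ℝ}

theorem Pr_up (hQ : 1 ≤ Q) {z : ℤ × ℤ} {R : ℤ} {U : Finset (ℤ × ℤ)} (hU : U ⊆ Bq z R)
    {A : Set Cfg} (hA : IncS A) : Pr Q U (ow z R) A ≤ Pr Q (Bq z R) eta1 A :=
  Ex_up hQ hU hA.incF (good_ow z R) f_good.2.2 fun _ _ hv => ⟨not_mem_of_ow hv, rfl⟩

theorem rtg_sym {F : Set (ℤ × ℤ)} {u v : ℤ × ℤ} (h : ReflTransGen (PStep F) u v) :
    ReflTransGen (PStep F) v u := by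
  induction h with
  | refl => exact ReflTransGen.refl
  | tail _ hs ih => exact ReflTransGen.head hs.symm ih

/-- The bounds for the arms. -/
theorem arms (hQ : 1 ≤ Q) (h : RSW Q) :
    (∃ (Λ : ℤ) (c : ℝ), 2 ≤ Λ ∧ 0 < c ∧ ∀ n : ℤ, 1 ≤ n → ∀ U : Finset (ℤ × ℤ),
      U ⊆ Bq 0 (Λ * n) → c ≤ gg Q (Λ * n) n U) ∧
    ∃ α C : ℝ, 0 < α ∧ α ≤ 1 ∧ 0 < C ∧ ∀ (R : ℤ) (U : Finset (ℤ × ℤ)) (z' : ℤ × ℤ)
      (d ρ : ℤ), 1 ≤ d → d ≤ ρ → U ⊆ Bq 0 R → Bq z' ρ ⊆ Bq 0 R →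
      Pr Q U (ow 0 R) {ω | Jt (Bq 0 R) {u | ρ ≤ nm (u - z')} (cor (Bq z' d)) ω} ≤
        C * ((d : ℝ) / ρ) ^ α := by
  have hQ0 : 0 < Q := by linarith
  constructor
  · obtain ⟨Λ, c, hΛ, hc, h⟩ := h
    refine ⟨Λ, c, hΛ, hc, fun n hn U hU => ?_⟩
    have h1 : Pr Q U (ow 0 (Λ * n)) {ω | Jt (Bq 0 (Λ * n)) {u | nm (u - 0) ≤ n}
        (Tout 0 (Λ * n)) ω} ≤ Pr Q U (ow 0 (Λ * n)) {ω | ArmPx 0 n (Λ * n) ω} := by
      refine Pr_mono hQ0 ?_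
      rintro ω ⟨s, hs, u, hu, hsu⟩
      have h2 : ReflTransGen (PStep (op ω)) s u := rtg_mono' (fun v hv => hv.2) hsu
      show ArmPx 0 n (Λ * n) ω
      rw [armPx_iff (by nlinarith)]
      refine ⟨u, s, ?_, hu, ?_, rtg_sym h2⟩
      · have := rtg_parity h2
        have := hs.1
        rw [Int.even_iff] at *
        omega
      · by_contra h3
        obtain ⟨-, v, hv, hvs⟩ := hs
        exact hv (sub_Bq_of_cor h3 hvs)
    have h2 := Pr_up hQ hU (inc_arm 0 n (Λ * n))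
    have h3 := (h 0 n hn).1
    unfold gg
    linarith
  · obtain ⟨α, C, hα, hC, h1, -⟩ := arm_fk hQ h
    refine ⟨min α 1, C, lt_min hα one_pos, min_le_right _ _, hC,
      fun R U z' d ρ hd hdρ hU hB => ?_⟩
    have h2 : Pr Q U (ow 0 R) {ω | Jt (Bq 0 R) {u | ρ ≤ nm (u - z')} (cor (Bq z' d)) ω} ≤
        Pr Q U (ow 0 R) {ω | ArmPx z' d ρ ω} := by
      refine Pr_mono hQ0 ?_
      rintro ω ⟨s, hs, u, hu, hsu⟩
      have h2 : ReflTransGen (PStep (op ω)) s u := rtg_mono' (fun v hv => hv.2) hsu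
      show ArmPx z' d ρ ω
      rw [armPx_iff hdρ]
      refine ⟨s, u, hs.1, ?_, hu, h2⟩
      obtain ⟨-, v, hv, h3, h4⟩ := hs
      rw [mem_Bq] at hv
      rw [nm_le_iff]
      simp only [Prod.fst_sub, Prod.snd_sub]
      omega
    have h3 := Pr_up hQ hU (inc_arm z' d ρ)
    have h4 := h1 z' d ρ (Bq 0 R) eta1 (fun _ => 1) hd hdρ f_good.2.2
      (Finset.sdiff_subset.trans hB) (fun _ => zero_le_one) (fun _ _ _ => rfl)
    simp only [one_mul] at h4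
    rw [Ex_const hQ0, mul_one] at h4
    refine (h2.trans (h3.trans h4)).trans ?_
    refine mul_le_mul_of_nonneg_left ?_ hC.le
    have hd' : (0 : ℝ) < d := by exact_mod_cast (by omega : 0 < d)
    have hρ' : (d : ℝ) ≤ ρ := by exact_mod_cast hdρ
    have hρ0 : (0 : ℝ) < ρ := by linarith
    exact Real.rpow_le_rpow_of_exponent_ge (div_pos hd' hρ0) ((div_le_one hρ0).2 hρ')
      (min_le_left _ _)

/-- The influence. -/
noncomputable def ab (Q : ℝ) (d R : ℤ) : ℝ := 1 - b1 Q 0 d R / b0 Q 0 d R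

theorem ab_mem (hQ : 1 ≤ Q) {d R : ℤ} : 0 ≤ ab Q d R ∧ ab Q d R ≤ 1 := by
  have h1 := b0_pos hQ (z := 0) (d := d) (R := R)
  have h2 := b1_le_b0 hQ (z := 0) (d := d) (R := R)
  have h3 := b1_nonneg hQ (z := 0) (d := d) (R := R)
  unfold ab
  constructor
  · rw [sub_nonneg, div_le_one h1]
    exact h2
  · linarith [div_nonneg h3 h1.le]

theorem ab_anti (hQ : 1 ≤ Q) {d R R' : ℤ} (h' : R ≤ R') : ab Q d R' ≤ ab Q d R := by
  unfold ab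
  refine sub_le_sub_left ?_ 1
  exact div_le_div₀ (b1_nonneg hQ) (b1_mono hQ h') (b0_pos hQ) (b0_anti hQ h')

theorem ab_mul (hQ : 1 ≤ Q) {d R : ℤ} :
    b0 Q 0 d R - b1 Q 0 d R = ab Q d R * b0 Q 0 d R := by
  have h1 := b0_pos hQ (z := 0) (d := d) (R := R)
  unfold ab
  field_simp

section

variable {Λ : ℤ} {c0 : ℝ}

theorem first_bound (hQ : 1 ≤ Q) (hΛ : 2 ≤ Λ) (hc0 : 0 < c0)
    (hc' : ∀ n : ℤ, 1 ≤ n → ∀ U : Finset (ℤ × ℤ), U ⊆ Bq 0 (Λ * n) → c0 ≤ gg Q (Λ * n) n U)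
    (d n : ℤ) (hd : 1 ≤ d) (hdn : d ≤ n) : ab Q d (2 * (Λ * n)) ≤ 4 / c0 * ((d : ℝ) / n) := by
  have hQ0 : 0 < Q := by linarith
  have hc01 : c0 ≤ 1 := (hc' 1 le_rfl ∅ (Finset.empty_subset _)).trans (gg_le_one hQ _ _ _)
  have hdR : (1 : ℝ) ≤ d := by exact_mod_cast hd
  have hnR : (d : ℝ) ≤ n := by exact_mod_cast hdn
  have hn0 : (0 : ℝ) < n := by linarith
  by_cases h2 : 2 * d ≤ n
  · obtain ⟨k, hk1, hk2, hk3⟩ := exists_k hd h2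
    have hb := basic hQ (Λ := Λ) (n := n) (d := d) (r := d) (k := k) (m := 1) hΛ hd le_rfl hdn
      hk2 (by simpa using h2) hc0 (hc' n (by omega)) zero_le_one (a := 1) (e := 0)
      (fun U z' _ _ => Pr_le_one hQ0 _) (by simp) (b0_pos hQ)
    simp only [Nat.cast_one, add_zero, sub_zero, one_mul] at hb
    have hb' : (k : ℝ) * (c0 * ab Q d (2 * (Λ * n))) ≤ 1 := hb
    have hkR : (1 : ℝ) ≤ k := by exact_mod_cast hk1
    have hk0 : 0 < (k : ℝ) * c0 := by positivity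
    have h3 : ab Q d (2 * (Λ * n)) ≤ 1 / (k * c0) := by
      rw [le_div_iff₀ hk0]
      linarith
    refine h3.trans ?_
    rw [div_mul_div_comm, div_le_div_iff₀ hk0 (by positivity)]
    nlinarith
  · have h3 := (ab_mem hQ (d := d) (R := 2 * (Λ * n))).2
    have h4 : (n : ℝ) ≤ 2 * d := by
      have : n ≤ 2 * d := by omega
      exact_mod_cast this
    have h5 : 1 ≤ 4 / c0 * ((d : ℝ) / n) := by
      rw [div_mul_div_comm, le_div_iff₀ (by positivity)]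
      nlinarith
    linarith

theorem small_bound (hQ : 1 ≤ Q) (hΛ : 2 ≤ Λ) {C1 : ℝ} (hC14 : 4 ≤ C1)
    (first : ∀ d n : ℤ, 1 ≤ d → d ≤ n → ab Q d (2 * (Λ * n)) ≤ C1 * ((d : ℝ) / n))
    (d r : ℤ) (hd : 1 ≤ d) (h : 1 / 2 < ab Q d r) :
    (r : ℝ) ≤ 4 * ((2 * Λ : ℤ) : ℝ) * C1 * d := by
  set K : ℤ := 2 * Λ with hK
  have hKR : (4 : ℝ) ≤ K := by
    have : (4 : ℤ) ≤ K := by omega
    exact_mod_cast this
  have hdR : (1 : ℝ) ≤ d := by exact_mod_cast hd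
  have hKC : 4 * (4 : ℝ) ≤ K * C1 := by nlinarith
  have hK0 : 0 < K := by omega
  have h1 : r / K * K ≤ r := Int.ediv_mul_le _ (by omega)
  have h2 : r < (r / K + 1) * K := Int.lt_ediv_add_one_mul_self r hK0
  by_cases h3 : d ≤ r / K
  · have h4 := first d (r / K) hd h3
    have h5 : ab Q d r ≤ ab Q d (2 * (Λ * (r / K))) := by
      have e : 2 * (Λ * (r / K)) = r / K * K := by rw [hK]; ring
      rw [e]
      exact ab_anti hQ h1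
    have h6 : (0 : ℝ) < ((r / K : ℤ) : ℝ) := by
      have : (0 : ℤ) < r / K := by omega
      exact_mod_cast this
    have h7 : (1 : ℝ) / 2 < C1 * ((d : ℝ) / ((r / K : ℤ) : ℝ)) := by linarith
    rw [← mul_div_assoc, lt_div_iff₀ h6] at h7
    have h8 : (r : ℝ) ≤ 2 * K * ((r / K : ℤ) : ℝ) := by
      have : r ≤ 2 * K * (r / K) := by nlinarith
      exact_mod_cast this
    nlinarith
  · have h4 : r ≤ K * d := by nlinarith
    have h5 : (r : ℝ) ≤ K * d := by exact_mod_cast h4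
    have h6 : (0 : ℝ) ≤ K * d := by positivity
    nlinarith

/-- Pure computation. -/
theorem frac {P0 P1 x : ℝ} (h0 : 0 < P0) (h1 : 0 ≤ P1) (h10 : P1 ≤ P0) (hx : 0 ≤ x)
    (hx2 : x ≤ 1 / 2) : (P1 + x * P0) / (P0 - x * P0) ≤ P1 / P0 + 4 * x := by
  have h2 : 0 < P0 - x * P0 := by nlinarith
  rw [div_add' _ _ _ h0.ne', div_le_div_iff₀ h2 h0]
  have h3 : 0 ≤ x * P0 := mul_nonneg hx h0.le
  have h4 : x * P1 ≤ x * P0 := mul_le_mul_of_nonneg_left h10 hx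
  have h5 : x * (x * P0) ≤ 1 / 2 * (x * P0) := mul_le_mul_of_nonneg_right hx2 h3
  have h6 : 0 ≤ (2 * (x * P0) - x * P1 - 4 * (x * (x * P0)) + x * P0) := by nlinarith
  have h7 : (P1 + 4 * x * P0) * (P0 - x * P0) - (P1 + x * P0) * P0 =
      P0 * (3 * (x * P0) - x * P1 - 4 * (x * (x * P0))) := by ring
  have h8 : 0 ≤ 3 * (x * P0) - x * P1 - 4 * (x * (x * P0)) := by nlinarith
  nlinarith [mul_nonneg h0.le h8]

theorem second_half (hQ : 1 ≤ Q) (hΛ : 2 ≤ Λ) (hc0 : 0 < c0) {α Ca : ℝ} (hα : 0 < α)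
    (hα1 : α ≤ 1) (hCa : 0 < Ca)
    (hc' : ∀ n : ℤ, 1 ≤ n → ∀ U : Finset (ℤ × ℤ), U ⊆ Bq 0 (Λ * n) → c0 ≤ gg Q (Λ * n) n U)
    (ha : ∀ (R : ℤ) (U : Finset (ℤ × ℤ)) (z' : ℤ × ℤ)
      (d ρ : ℤ), 1 ≤ d → d ≤ ρ → U ⊆ Bq 0 R → Bq z' ρ ⊆ Bq 0 R →
      Pr Q U (ow 0 R) {ω | Jt (Bq 0 R) {u | ρ ≤ nm (u - z')} (cor (Bq z' d)) ω} ≤
        Ca * ((d : ℝ) / ρ) ^ α)
    (d n ρ r : ℤ) (hd : 1 ≤ d) (hdr : d ≤ r) (hr1 : 2 * r ≤ ρ) (hr2 : ρ ≤ 3 * r) (hρn : ρ ≤ n)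
    (hhalf : ab Q d r ≤ 1 / 2) :
    ab Q d (2 * (Λ * n)) ≤ 8 / c0 * ((ρ : ℝ) / n * (d / n)) +
      4 * (9 * Ca * ((n : ℝ) / ρ * ((d : ℝ) / ρ) ^ α * ab Q d r)) := by
  have hQ0 : 0 < Q := by linarith
  have hrK : r ≤ 2 * (Λ * n) := by nlinarith
  have hdR : (1 : ℝ) ≤ d := by exact_mod_cast hd
  have hrR1 : 2 * (r : ℝ) ≤ ρ := by exact_mod_cast hr1
  have hrR2 : (ρ : ℝ) ≤ 3 * r := by exact_mod_cast hr2
  have hdrR : (d : ℝ) ≤ r := by exact_mod_cast hdr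
  have hρnR : (ρ : ℝ) ≤ n := by exact_mod_cast hρn
  have hr0 : (0 : ℝ) < r := by linarith
  have hρ0 : (0 : ℝ) < ρ := by linarith
  have hn0 : (0 : ℝ) < n := by linarith
  have hAr := ab_mem hQ (d := d) (R := r)
  obtain ⟨k, hk1, hk2, hk3⟩ := exists_k (n := n) hd (by omega)
  obtain ⟨m, hm1, hm2, hm3⟩ := exists_k (n := n) (d := r) (by omega) (by omega)
  have hkR : (1 : ℝ) ≤ k := by exact_mod_cast hk1
  have hmR : (1 : ℝ) ≤ m := by exact_mod_cast hm1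
  have hn3 := num1 hkR hmR hdR hn0 hρ0 hrR1 hc0 hk3 hm3
  have hm2R : 2 * (r : ℝ) * m ≤ n := by exact_mod_cast hm2
  have hn4 := num2 hmR hdR hr0 hρ0 hrR2 hCa hα hα1 hAr.1 hm2R
  have hpr : 0 ≤ ((d : ℝ) / r) ^ α := Real.rpow_nonneg (by positivity) _
  obtain ⟨a, hadef⟩ : ∃ a, a = Ca * ((d : ℝ) / r) ^ α := ⟨_, rfl⟩
  have ha0 : 0 ≤ a := by rw [hadef]; exact mul_nonneg hCa.le hpr
  rw [← hadef] at hn4
  have hP0p : 0 < b0 Q 0 d (2 * (Λ * n)) := b0_pos hQ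
  have hD : (b0 Q 0 d r - b1 Q 0 d r) ≤ 2 * ab Q d r * b0 Q 0 d (2 * (Λ * n)) := by
    have h2 : b1 Q 0 d r ≤ b1 Q 0 d (2 * (Λ * n)) := b1_mono hQ hrK
    have h3 : b1 Q 0 d (2 * (Λ * n)) ≤ b0 Q 0 d (2 * (Λ * n)) := b1_le_b0 hQ
    have h4 := ab_mul hQ (d := d) (R := r)
    have h5 := b0_pos hQ (z := 0) (d := d) (R := r)
    have h1 : b0 Q 0 d r ≤ 2 * b0 Q 0 d (2 * (Λ * n)) := by nlinarith
    rw [h4]
    nlinarith [mul_le_mul_of_nonneg_left h1 hAr.1]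
  have hD0 : 0 ≤ b0 Q 0 d r - b1 Q 0 d r := sub_nonneg.2 (b1_le_b0 hQ)
  have hP1 : 0 ≤ b1 Q 0 d (2 * (Λ * n)) := b1_nonneg hQ
  have hP10 : b1 Q 0 d (2 * (Λ * n)) ≤ b0 Q 0 d (2 * (Λ * n)) := b1_le_b0 hQ
  have hab := ab_mem hQ (d := d) (R := 2 * (Λ * n))
  obtain ⟨x, hxdef⟩ : ∃ x, x = m * (a * (2 * ab Q d r)) := ⟨_, rfl⟩
  have hx0 : 0 ≤ x := by
    rw [hxdef]
    exact mul_nonneg (by linarith) (mul_nonneg ha0 (by linarith))
  have hkm : 0 < (k : ℝ) * (m * c0) := by positivity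
  have h8 : 0 ≤ 8 / c0 * ((ρ : ℝ) / n * (d / n)) := by positivity
  have h9 : 4 * x ≤ 4 * (9 * Ca * ((n : ℝ) / ρ * ((d : ℝ) / ρ) ^ α * ab Q d r)) := by
    rw [hxdef]
    linarith
  by_cases hx : x < 1 / 2
  · have hb := basic hQ (Λ := Λ) (n := n) (d := d) (r := r) (k := k) (m := m)
      (e := x * b0 Q 0 d (2 * (Λ * n))) hΛ hd hdr
      (by omega) hk2 hm2 hc0 (hc' n (by omega)) ha0
      (fun U z' hU hz' => by rw [hadef]; exact ha (Λ * n) U z' d r hd hdr hU hz') ?_ ?_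
    · have h1 := frac hP0p hP1 hP10 hx0 hx.le
      have h2 : 1 - (b1 Q 0 d (2 * (Λ * n)) + x * b0 Q 0 d (2 * (Λ * n))) /
          (b0 Q 0 d (2 * (Λ * n)) - x * b0 Q 0 d (2 * (Λ * n))) ≤ 1 / (k * (m * c0)) := by
        rw [le_div_iff₀ hkm]
        refine le_trans (le_of_eq ?_) hb
        ring
      have h3 : ab Q d (2 * (Λ * n)) = 1 - b1 Q 0 d (2 * (Λ * n)) / b0 Q 0 d (2 * (Λ * n)) := rfl
      rw [h3]
      linarith
    · have h1 : (m - 1 : ℝ) * (a * (b0 Q 0 d r - b1 Q 0 d r)) ≤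
          m * (a * (b0 Q 0 d r - b1 Q 0 d r)) :=
        mul_le_mul_of_nonneg_right (by linarith) (mul_nonneg ha0 hD0)
      have h2 : (m : ℝ) * (a * (b0 Q 0 d r - b1 Q 0 d r)) ≤
          m * (a * (2 * ab Q d r * b0 Q 0 d (2 * (Λ * n)))) :=
        mul_le_mul_of_nonneg_left (mul_le_mul_of_nonneg_left hD ha0) (by linarith)
      refine (h1.trans h2).trans (le_of_eq ?_)
      rw [hxdef]
      ring
    · have h1 : x * b0 Q 0 d (2 * (Λ * n)) ≤ 1 / 2 * b0 Q 0 d (2 * (Λ * n)) :=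
        mul_le_mul_of_nonneg_right hx.le hP0p.le
      linarith
  · push Not at hx
    linarith

end

/-- **MIX > 1 for bumps.** -/
theorem mix1b (hQ : 1 ≤ Q) (hR : RSW Q) (hO : M_OPT) : MIX1B Q := by
  have hQ0 : 0 < Q := by linarith
  obtain ⟨⟨Λ, c0, hΛ, hc0, hc'⟩, α, Ca, hα, hα1, hCa, ha⟩ := arms hQ hR
  have hc01 : c0 ≤ 1 := (hc' 1 le_rfl ∅ (Finset.empty_subset _)).trans (gg_le_one hQ _ _ _)
  obtain ⟨C1, hC1⟩ : ∃ C1, C1 = 4 / c0 := ⟨_, rfl⟩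
  have hC14 : 4 ≤ C1 := by
    rw [hC1, le_div_iff₀ hc0]
    linarith
  have first := first_bound hQ hΛ hc0 hc'
  rw [← hC1] at first
  have small := small_bound hQ hΛ hC14 first
  have hΛR : (4 : ℝ) ≤ ((2 * Λ : ℤ) : ℝ) := by
    have : (4 : ℤ) ≤ 2 * Λ := by omega
    exact_mod_cast this
  obtain ⟨κ, hκ⟩ : ∃ κ, κ = 12 * ((2 * Λ : ℤ) : ℝ) * C1 := ⟨_, rfl⟩
  have hκ1 : 1 ≤ κ := by rw [hκ]; nlinarith
  obtain ⟨C, hC⟩ : ∃ C, C = max (max (8 / c0) (36 * Ca)) (max (2 * κ) C1) := ⟨_, rfl⟩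
  have hC8 : 8 / c0 ≤ C := hC ▸ (le_max_left _ _).trans (le_max_left _ _)
  have hC9 : 36 * Ca ≤ C := hC ▸ (le_max_right _ _).trans (le_max_left _ _)
  have hCκ : 2 * κ ≤ C := hC ▸ (le_max_left _ _).trans (le_max_right _ _)
  have hCC1 : C1 ≤ C := hC ▸ (le_max_right _ _).trans (le_max_right _ _)
  have hC0 : 0 < C := by linarith
  have eK : ∀ n : ℤ, 2 * Λ * n = 2 * (Λ * n) := fun n => by ring
  have second : ∀ d n ρ : ℤ, 1 ≤ d → 4 * d ≤ ρ → ρ ≤ n → ab Q d (2 * Λ * n) ≤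
      C * ((ρ : ℝ) / n * (d / n) + (n : ℝ) / ρ * ((d : ℝ) / ρ) ^ α * ab Q d (ρ / 2)) := by
    intro d n ρ hd hdρ hρn
    rw [eK]
    obtain ⟨r, hr⟩ : ∃ r, r = ρ / 2 := ⟨_, rfl⟩
    rw [← hr]
    have hr1 : 2 * r ≤ ρ := by omega
    have hr2 : ρ ≤ 3 * r := by omega
    have hdr : d ≤ r := by omega
    have hdR : (1 : ℝ) ≤ d := by exact_mod_cast hd
    have hρn' : (ρ : ℝ) ≤ n := by exact_mod_cast hρn
    have hdρ' : (4 * d : ℝ) ≤ ρ := by exact_mod_cast hdρ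
    have hρ0 : (0 : ℝ) < ρ := by linarith
    have hn0 : (0 : ℝ) < n := by linarith
    have hAr := ab_mem hQ (d := d) (R := r)
    have hpow0 : 0 ≤ ((d : ℝ) / ρ) ^ α := Real.rpow_nonneg (by positivity) _
    have hterm : 0 ≤ (n : ℝ) / ρ * ((d : ℝ) / ρ) ^ α * ab Q d r := by
      have : 0 ≤ (n : ℝ) / ρ := by positivity
      exact mul_nonneg (mul_nonneg this hpow0) hAr.1
    have hterm1 : 0 ≤ (ρ : ℝ) / n * (d / n) := by positivity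
    rw [mul_add]
    by_cases hhalf : ab Q d r ≤ 1 / 2
    · refine (second_half hQ hΛ hc0 hα hα1 hCa hc' ha d n ρ r hd hdr hr1 hr2 hρn hhalf).trans ?_
      refine add_le_add (mul_le_mul_of_nonneg_right hC8 hterm1) ?_
      have h1 := mul_le_mul_of_nonneg_right hC9 hterm
      linarith
    · push Not at hhalf
      have h1 := small d r hd hhalf
      have hrR2 : (ρ : ℝ) ≤ 3 * r := by exact_mod_cast hr2
      have h2 : (ρ : ℝ) ≤ κ * d := by rw [hκ]; linarith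
      have h3 := (ab_mem hQ (d := d) (R := 2 * (Λ * n))).2
      have h4 : 1 / κ ≤ (d : ℝ) / ρ := by
        rw [div_le_div_iff₀ (by linarith) hρ0]
        linarith
      have h5 : (d : ℝ) / ρ ≤ 1 := by
        rw [div_le_one hρ0]
        linarith
      have h6 : (d : ℝ) / ρ ≤ ((d : ℝ) / ρ) ^ α := by
        calc (d : ℝ) / ρ = ((d : ℝ) / ρ) ^ (1 : ℝ) := (Real.rpow_one _).symm
          _ ≤ _ := Real.rpow_le_rpow_of_exponent_ge (by positivity) h5 hα1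
      have h7 : (1 : ℝ) ≤ n / ρ := by
        rw [le_div_iff₀ hρ0]
        linarith
      have h9 := second_small hκ1 hCκ hhalf h7 (h4.trans h6)
      have h10 := mul_nonneg hC0.le hterm1
      linarith
  have firstK : ∀ d n : ℤ, 1 ≤ d → d ≤ n → ab Q d (2 * Λ * n) ≤ C * ((d : ℝ) / n) := by
    intro d n hd hdn
    rw [eK]
    refine (first d n hd hdn).trans (mul_le_mul_of_nonneg_right hCC1 ?_)
    have h1 : (0 : ℝ) ≤ d := by exact_mod_cast (by omega : (0 : ℤ) ≤ d)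
    have h2 : (0 : ℝ) ≤ n := by exact_mod_cast (by omega : (0 : ℤ) ≤ n)
    positivity
  obtain ⟨c, C', hc1, hC', hfin⟩ := hO (ab Q) (2 * Λ) C α (by omega) hC0 hα hα1
    (fun d R _ _ => ab_mem hQ) (fun d R R' _ _ h' => ab_anti hQ h') second firstK
  refine ⟨c, C', hc1, hC', fun z d R hz hd hdR => ?_⟩
  have h1 := hfin d R hd hdR
  have h2 := b0_pos hQ (z := 0) (d := d) (R := R)
  have h4 := b0_tr hQ0 hz (d := d) (R := R)
  have h5 := b1_tr hQ0 hz (d := d) (R := R)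
  unfold ab at h1
  have h3 : 1 - C' * ((d : ℝ) / R) ^ (1 + c) ≤ b1 Q 0 d R / b0 Q 0 d R := by linarith
  rw [le_div_iff₀ h2, ← h4, ← h5] at h3
  exact h3

end Vale.Agent.P167.H135.Q.BM

namespace Vale.Agent.P167.H135.Q

/-- **MIX > 1 at a free flat side**, the open state (ratio form for rare events). -/
theorem mix2 {Q : ℝ} (hQ : 1 ≤ Q) (hR : Vale.Agent.P167.FK.RSW Q)
    (hO : Vale.Agent.P167.QM.M_OPT) : MIX2 Q :=
  mix2_of_bump hQ hR (BM.mix1b hQ hR hO)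

end Vale.Agent.P167.H135.Q
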