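import Vale.Agent.P167.H135.Q.Expl

/-!
# P167, general `q`, MIX > 1: the open state of a block at a free flat side

From the estimate for closed full boxes (bumps of the flat side) to the ratio of the open states of
half boxes.
-/

namespace Vale.Agent.P167.H135.Q

open Finset Relation Vale.Agent.P167.FK
open Vale.Agent.P145.FB (PStep PConn)
open Vale.Agent.P167.H259 (four lattice_w f_markov f_fkg f_comp f_comp2 PC_mono cf_mono2)
open Vale.Agent.P167.FKA (Zq_pos Loc Ex_congr Ex_mono cf_out Op Cor cor_of_step step_of_cor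
  mem_nb shi du_dui dui_du dui mem_Bq_sh)
open Vale.Agent.P167.H519 (cf_in pa_even pb_even pa_cor pb_cor)
open Vale.Agent.P167.QM (HB ow Cl Ex_Cl)

variable {Q : ℝ} {A Λ b : Finset (ℤ × ℤ)} {ξ ξ' : Cfg} {z : ℤ × ℤ} {r R : ℤ}

theorem bq_mono {x : ℤ × ℤ} {r R : ℤ} (h : r ≤ R) : Bq x r ⊆ Bq x R := by
  intro v hv
  simp only [Bq, mem_product, mem_Ico] at hv ⊢
  omega

theorem sub_Bq_of_cor {x u a : ℤ × ℤ} {R : ℤ} (h : ¬ R ≤ nm (u - x)) (ha : Cor a u) :
    a ∈ Bq x R := by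
  unfold nm at h
  simp only [Prod.fst_sub, Prod.snd_sub] at h
  obtain ⟨h1, h2⟩ := ha
  simp only [Bq, mem_product, mem_Ico]
  rw [not_le, max_lt_iff, abs_lt, abs_lt] at h
  omega

/-- The arm event is the complement of the event of no connection. -/
theorem not_arm_iff {x : ℤ × ℤ} {r R : ℤ} (hrR : r ≤ R) (ω : Cfg) :
    ¬ ArmPx x r R ω ↔ ω ∈ NP (Bq x R) {u | nm (u - x) ≤ r} {u | R ≤ nm (u - x)} := by
  constructor
  · intro h u hu hF
    obtain ⟨s, hs, hse, hsu⟩ := hu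
    refine h ((FKA.armPx_iff hrR).2 ⟨s, u, hse, hs, hF, QM.rtg_mono' ?_ hsu⟩)
    intro v hv
    exact hv.2
  · rintro h ⟨u, v, hu, hur, hvR, hu0, hp⟩
    have key : ∀ y, ReflTransGen (fun x' y' => PStep (op ω) x' y' ∧ y' ∈ {w | nm (w - x) ≤ R}) u y →
        ∃ y', y' ∈ Kx (Bq x R) {u | nm (u - x) ≤ r} ω ∧ (y' = y ∨ R ≤ nm (y' - x)) := by
      intro y hy
      induction hy with
      | refl => exact ⟨u, ⟨u, hur, hu, ReflTransGen.refl⟩, Or.inl rfl⟩
      | @tail y y1 _ hst ih =>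
        obtain ⟨y', h1, h2⟩ := ih
        rcases h2 with rfl | h2
        · by_cases hR : R ≤ nm (y' - x)
          · exact ⟨y', h1, Or.inr hR⟩
          · refine ⟨y1, Kx_step h1 ⟨hst.1.1, hst.1.2.1, ?_, hst.1.2.2⟩, Or.inl rfl⟩
            exact sub_Bq_of_cor hR (cor_of_step hst.1).1
        · exact ⟨y', h1, Or.inr h2⟩
    obtain ⟨y', h1, h2⟩ := key v hp
    rcases h2 with rfl | h2
    · exact h y' h1 hvR
    · exact h y' h1 h2

theorem Pr_dual (hQ0 : 0 < Q) (hξ : Good ξ) (E : Set Cfg) :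
    Pr Q (A.image FKA.sh) (du ξ) E = Pr Q A ξ {ω | du ω ∈ E} := by
  unfold Pr
  refine (f_dual.2 Q A ξ (E.indicator 1) hQ0 hξ).trans (Ex_congr fun S _ => ?_)
  rfl

/-- **No dual arm against an open block.** -/
theorem opn_ratio (hQ : 1 ≤ Q) (hrR : r ≤ R) (hA : Bq z R ⊆ A) (hb : b ⊆ Bq z r) (hξ : Good ξ)
    (hξ' : Good ξ') (hle : ∀ v, ξ v = true → ξ' v = true) :
    Pr Q A ξ {ω | ¬ ArmDx z r R ω} * Pr Q A ξ' (BT b b) ≤
      Pr Q A ξ' {ω | ¬ ArmDx z r R ω} * Pr Q A ξ (BT b b) := by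
  classical
  have hQ0 : 0 < Q := by linarith
  have hD1 : {ω | ¬ ArmDx z r R ω} =
      {ω | du ω ∈ NP (Bq (FKA.sh z) R) {u | nm (u - FKA.sh z) ≤ r} {u | R ≤ nm (u - FKA.sh z)}} := by
    ext ω
    show ¬ ArmDx z r R ω ↔
      du ω ∈ NP (Bq (FKA.sh z) R) {u | nm (u - FKA.sh z) ≤ r} {u | R ≤ nm (u - FKA.sh z)}
    rw [FKA.arm_dual, not_arm_iff hrR]
  have hB1 : BT b b = {ω | du ω ∈ BT (b.image FKA.sh) ∅} := by
    ext ω
    simp only [BT, Set.mem_ofPred_eq, Finset.mem_image, notMem_empty, decide_false]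
    constructor
    · rintro h v ⟨w, hw, rfl⟩
      have := h w hw
      simp only [hw, decide_true] at this
      have e : ((FKA.sh w).1 - 1, (FKA.sh w).2) = w := by simp [FKA.sh]
      simp only [du]
      rw [e, this]
      rfl
    · intro h v hv
      have := h (FKA.sh v) ⟨v, hv, rfl⟩
      have e : ((FKA.sh v).1 - 1, (FKA.sh v).2) = v := by simp [FKA.sh]
      simp only [du] at this
      rw [e] at this
      simp only [hv, decide_true]
      simpa using this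
  rw [hD1, hB1, ← Pr_dual hQ0 hξ, ← Pr_dual hQ0 hξ', ← Pr_dual hQ0 hξ, ← Pr_dual hQ0 hξ']
  refine np_ratio (W := ∅) hQ ?_ ?_ ?_ (f_dual.1 _ hξ') (f_dual.1 _ hξ) (Dom.of_le ?_) ?_
  · intro v hv
    rw [mem_Bq_sh] at hv
    exact Finset.mem_image.2 ⟨shi v, hA hv, FKA.sh_shi v⟩
  · intro v hv
    obtain ⟨w, hw, rfl⟩ := Finset.mem_image.1 hv
    rw [mem_Bq_sh, FKA.shi_sh]
    exact bq_mono hrR (hb hw)
  · intro v hv
    obtain ⟨w, hw, rfl⟩ := Finset.mem_image.1 hv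
    refine ⟨FK.pa (FKA.sh w), ?_, pa_even _, pa_cor _⟩
    have h1 := hb hw
    have h2 := pa_cor (FKA.sh w)
    obtain ⟨h2, h3⟩ := h2
    simp only [FKA.sh] at h2 h3
    simp only [Bq, mem_product, mem_Ico] at h1
    show nm (FK.pa (FKA.sh w) - FKA.sh z) ≤ r
    unfold nm
    simp only [Prod.fst_sub, Prod.snd_sub, FKA.sh] at h2 h3 ⊢
    rw [max_le_iff, abs_le, abs_le]
    omega
  · intro v hv
    simp only [du, Bool.not_eq_true'] at hv ⊢
    cases h : ξ (v.1 - 1, v.2) with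
    | false => rfl
    | true => rw [hle _ h] at hv; exact absurd hv (by simp)
  · refine ⟨?_, fun w hw => absurd hw (Set.notMem_empty _),
      fun w hw => absurd hw (Set.notMem_empty _)⟩
    intro u _ hu a ha
    exact Or.inl (sub_Bq_of_cor hu ha)

/-- Comparison of the states above a given state. -/
theorem tv_above {D B T0 : Finset (ℤ × ℤ)} {η η' : Cfg} {ρ : ℝ} (hQ : 1 ≤ Q) (hη : Good η)
    (hη' : Good η') (hd : Dom D η η') (hB : B ⊆ D) (hT0 : T0 ⊆ B)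
    (hc : ρ * Pr Q D η (BT B T0) ≤ Pr Q D η' (BT B T0)) {F : Cfg → ℝ}
    (hF : Loc B F) (h0 : ∀ ω, 0 ≤ F ω) (hz : ∀ T ⊆ B, ¬ T0 ⊆ T → F (cf B eta0 T) = 0) :
    ρ * Ex Q D η F ≤ Ex Q D η' F := by
  have hQ0 : 0 < Q := by linarith
  rw [Ex_block (η := η') hB hF eta0, Ex_block (η := η) hB hF eta0, Finset.mul_sum]
  refine Finset.sum_le_sum fun T hT => ?_
  rw [mem_powerset] at hT
  rw [← mul_assoc]
  by_cases hTT : T0 ⊆ T
  · refine mul_le_mul_of_nonneg_right ?_ (h0 _)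
    have h1 := dens (T := T0) hQ hη hη' hd hB hT hTT
    have p0 : 0 < Pr Q D η (BT B T0) := Pr_BT_pos hQ0 hB hT0
    have q1 : 0 < Pr Q D η (BT B T) := Pr_BT_pos hQ0 hB hT
    have h3 : (ρ * Pr Q D η (BT B T)) * Pr Q D η (BT B T0) ≤
        Pr Q D η' (BT B T) * Pr Q D η (BT B T0) := by
      calc _ = Pr Q D η (BT B T) * (ρ * Pr Q D η (BT B T0)) := by ring
        _ ≤ Pr Q D η (BT B T) * Pr Q D η' (BT B T0) := mul_le_mul_of_nonneg_left hc q1.le
        _ ≤ Pr Q D η (BT B T0) * Pr Q D η' (BT B T) := h1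
        _ = _ := by ring
    exact le_of_mul_le_mul_right h3 p0
  · rw [hz T hT hTT, mul_zero, mul_zero]

theorem loc_armD {x : ℤ × ℤ} {r R : ℤ} : Loc (Bq x R) ({ω | ArmDx x r R ω}.indicator 1) := by
  have key : ∀ ω ω' : Cfg, (∀ v ∈ Bq x R, ω v = ω' v) → ArmDx x r R ω → ArmDx x r R ω' := by
    rintro ω ω' h ⟨u, v, h1, h2, h3, h4, h5⟩
    refine ⟨u, v, h1, h2, h3, h4, ?_⟩
    clear h2 h3
    induction h5 with
    | refl => exact ReflTransGen.refl
    | @tail y y' hy hst ih =>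
      have hyR : nm (y - x) ≤ R := by
        rcases ReflTransGen.cases_tail hy with h6 | ⟨w, -, h6⟩
        · rw [h6]; exact h4
        · exact h6.2
      refine ih.tail ⟨⟨hst.1.1, hst.1.2.1, ?_⟩, hst.2⟩
      have hm : (min y.1 y'.1, min y.2 y'.2) ∈ Bq x R := by
        have h7 : nm (y' - x) ≤ R := hst.2
        have h8 := hst.1.1
        have h9 := hst.1.2.1
        unfold nm at hyR h7
        simp only [Prod.fst_sub, Prod.snd_sub, max_le_iff, abs_le] at hyR h7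
        simp only [Bq, mem_product, mem_Ico]
        omega
      have h10 := hst.1.2.2
      show ¬ ω' _ = true
      rw [← h _ hm]
      exact h10
  intro ω ω' h
  by_cases h1 : ArmDx x r R ω
  · rw [Set.indicator_of_mem (show ω ∈ {ω | ArmDx x r R ω} from h1),
      Set.indicator_of_mem (show ω' ∈ {ω | ArmDx x r R ω} from key ω ω' h h1)]
    rfl
  · rw [Set.indicator_of_notMem (show ω ∉ {ω | ArmDx x r R ω} from h1),
      Set.indicator_of_notMem (show ω' ∉ {ω | ArmDx x r R ω} from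
        fun h2 => h1 (key ω' ω (fun v hv => (h v hv).symm) h2))]

theorem BT_empty (S : Finset (ℤ × ℤ)) : BT S ∅ = Cl S := by
  ext ω
  simp only [BT, Cl, notMem_empty, decide_false, Set.mem_ofPred_eq]

/-- **The bump inequality.** `E` is the domain with the bump, `L` the part of the bump outside of
`D = E \ L`. If the closed state of the bump is influenced by at most `ε`, the open state of the
block `b` in `D` is influenced by at most `6 ε`. -/
theorem bump (hQ : 1 ≤ Q) {E L : Finset (ℤ × ℤ)} {r ρ : ℤ} (hrρ : r ≤ ρ) (hE : Bq z ρ ⊆ E)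
    (hL : L ⊆ Bq z ρ) (hb : b ⊆ Bq z r) (hbL : Disjoint b L) (hξ : Good ξ) (hξ' : Good ξ')
    (hle : ∀ v, ξ v = true → ξ' v = true) (hξL : ∀ v ∈ L, ξ' v = false)
    (hO : 1 / 2 ≤ Pr Q E ξ {ω | ¬ ArmDx z r ρ ω}) {ε : ℝ} (hε0 : 0 ≤ ε) (hε : ε ≤ 1 / 2)
    (hc : (1 - ε) * Pr Q E ξ (Cl (Bq z ρ)) ≤ Pr Q E ξ' (Cl (Bq z ρ))) :
    Pr Q (E \ L) ξ' (BT b b) ≤ (1 + 6 * ε) * Pr Q (E \ L) ξ (BT b b) := by
  classical
  have hQ0 : 0 < Q := by linarith
  have hd : Dom E ξ ξ' := Dom.of_le hle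
  have hbE : b ⊆ E := hb.trans ((bq_mono hrρ).trans hE)
  have hLE : L ⊆ E := hL.trans hE
  rw [← BT_empty] at hc
  -- the open state in `E`
  have h1 := opn_ratio hQ hrρ hE hb hξ hξ' hle
  have h2 : Pr Q E ξ' {ω | ¬ ArmDx z r ρ ω} ≤ (1 + 2 * ε) * Pr Q E ξ {ω | ¬ ArmDx z r ρ ω} := by
    have h3 := tv_mul (ρ := 1 - ε) hQ hξ hξ' hd hE hc loc_armD
      (F := {ω | ArmDx z r ρ ω}.indicator 1) fun ω => FKA.ind_nonneg _ _
    have e : ∀ η, Pr Q E η {ω | ¬ ArmDx z r ρ ω} = 1 - Ex Q E η ({ω | ArmDx z r ρ ω}.indicator 1) :=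
      fun η => FKA.Pr_compl hQ0 _
    rw [e ξ'] at *
    rw [e ξ] at hO ⊢
    nlinarith
  have h4 : Pr Q E ξ' (BT b b) ≤ (1 + 2 * ε) * Pr Q E ξ (BT b b) := by
    have p0 : 0 < Pr Q E ξ (BT b b) := Pr_BT_pos hQ0 hbE subset_rfl
    have pO : 0 < Pr Q E ξ {ω | ¬ ArmDx z r ρ ω} := by linarith
    have h5 : Pr Q E ξ {ω | ¬ ArmDx z r ρ ω} * Pr Q E ξ' (BT b b) ≤
        Pr Q E ξ {ω | ¬ ArmDx z r ρ ω} * ((1 + 2 * ε) * Pr Q E ξ (BT b b)) := by
      calc _ ≤ Pr Q E ξ' {ω | ¬ ArmDx z r ρ ω} * Pr Q E ξ (BT b b) := h1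
        _ ≤ (1 + 2 * ε) * Pr Q E ξ {ω | ¬ ArmDx z r ρ ω} * Pr Q E ξ (BT b b) :=
          mul_le_mul_of_nonneg_right h2 p0.le
        _ = _ := by ring
    exact le_of_mul_le_mul_left h5 pO
  -- the open state with `L` closed
  have hbLE : b ∪ L ⊆ E := Finset.union_subset hbE hLE
  have h6 : Pr Q E ξ' (BT (b ∪ L) b) ≤ (1 + 2 * ε) * Pr Q E ξ (BT (b ∪ L) b) := by
    by_contra hcon
    push Not at hcon
    have q0 : 0 < Pr Q E ξ (BT (b ∪ L) b) := Pr_BT_pos hQ0 hbLE Finset.subset_union_left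
    have p0 : 0 < Pr Q E ξ (BT b b) := Pr_BT_pos hQ0 hbE subset_rfl
    have h7 := tv_above (ρ := Pr Q E ξ' (BT (b ∪ L) b) / Pr Q E ξ (BT (b ∪ L) b)) hQ hξ hξ' hd hbLE
      Finset.subset_union_left (by rw [div_mul_cancel₀ _ q0.ne'])
      (F := (BT b b).indicator 1) (loc_BT Finset.subset_union_left) (fun ω => FKA.ind_nonneg _ _)
      (by
        intro T hT hbT
        rw [Set.indicator_of_notMem]
        intro h8
        refine hbT fun v hv => ?_
        have h9 := h8 v hv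
        rw [cf_in (Finset.mem_union_left L hv)] at h9
        simp only [hv, decide_true] at h9
        exact of_decide_eq_true h9)
    have h8 : (1 + 2 * ε) < Pr Q E ξ' (BT (b ∪ L) b) / Pr Q E ξ (BT (b ∪ L) b) := by
      rw [lt_div_iff₀ q0]
      exact hcon
    have h9 := mul_lt_mul_of_pos_right h8 p0
    exact absurd h4 (not_le.2 (h9.trans_le h7))
  -- `L` closed
  have h10 : (1 - ε) * Pr Q E ξ (Cl L) ≤ Pr Q E ξ' (Cl L) := by
    have h11 := tv_mul (ρ := 1 - ε) hQ hξ hξ' hd hE hc (F := (BT L ∅).indicator 1) (loc_BT hL)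
      fun ω => FKA.ind_nonneg _ _
    rw [BT_empty] at h11
    exact h11
  -- conditioning
  have hcl : ∀ η : Cfg, Good η → (∀ v ∈ L, η v = false) →
      Pr Q E η (BT (b ∪ L) b) = Pr Q E η (Cl L) * Pr Q (E \ L) η (BT b b) := by
    intro η hη hηL
    have h12 := Ex_Cl hQ0 (D := E) (S := L) hη ((BT b b).indicator 1)
    have h13 : cf L η ∅ = η := by
      funext v
      by_cases hv : v ∈ L
      · rw [cf_in hv, hηL v hv]; simp
      · rw [cf_out hv]
    rw [h13] at h12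
    refine Eq.trans ?_ h12
    refine Ex_congr fun S _ => ?_
    rw [← FKA.ind_inter]
    congr 1
    ext ω
    simp only [BT, Cl, Set.mem_ofPred_eq, Set.mem_inter_iff, Finset.mem_union]
    constructor
    · intro h
      refine ⟨fun v hv => ?_, fun v hv => h v (Or.inl hv)⟩
      have h14 := h v (Or.inr hv)
      rw [h14]
      exact decide_eq_false fun h' => Finset.disjoint_left.1 hbL h' hv
    · rintro ⟨h14, h15⟩ v (hv | hv)
      · exact h15 v hv
      · rw [h14 v hv]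
        exact (decide_eq_false fun h' => Finset.disjoint_left.1 hbL h' hv).symm
  have hξL' : ∀ v ∈ L, ξ v = false := by
    intro v hv
    cases h : ξ v with
    | false => rfl
    | true => have := hle v h; rw [hξL v hv] at this; exact absurd this (by simp)
  rw [hcl ξ' hξ' hξL, hcl ξ hξ hξL'] at h6
  have c0 : 0 < Pr Q E ξ (Cl L) := by
    rw [← BT_empty]; exact Pr_BT_pos hQ0 hLE (Finset.empty_subset _)
  have d0 : 0 ≤ Pr Q (E \ L) ξ' (BT b b) := FKA.Pr_nonneg hQ0 _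
  have d1 : 0 ≤ Pr Q (E \ L) ξ (BT b b) := FKA.Pr_nonneg hQ0 _
  have h16 : (1 - ε) * Pr Q (E \ L) ξ' (BT b b) ≤ (1 + 2 * ε) * Pr Q (E \ L) ξ (BT b b) := by
    have h17 : Pr Q E ξ (Cl L) * ((1 - ε) * Pr Q (E \ L) ξ' (BT b b)) ≤
        Pr Q E ξ (Cl L) * ((1 + 2 * ε) * Pr Q (E \ L) ξ (BT b b)) := by
      calc _ = ((1 - ε) * Pr Q E ξ (Cl L)) * Pr Q (E \ L) ξ' (BT b b) := by ring
        _ ≤ Pr Q E ξ' (Cl L) * Pr Q (E \ L) ξ' (BT b b) := mul_le_mul_of_nonneg_right h10 d0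
        _ ≤ (1 + 2 * ε) * (Pr Q E ξ (Cl L) * Pr Q (E \ L) ξ (BT b b)) := h6
        _ = _ := by ring
    exact le_of_mul_le_mul_left h17 c0
  have h18 : (1 + 2 * ε) * Pr Q (E \ L) ξ (BT b b) ≤
      (1 - ε) * ((1 + 6 * ε) * Pr Q (E \ L) ξ (BT b b)) := by
    have h19 : (1 + 2 * ε) ≤ (1 - ε) * (1 + 6 * ε) := by nlinarith
    calc _ ≤ ((1 - ε) * (1 + 6 * ε)) * Pr Q (E \ L) ξ (BT b b) :=
          mul_le_mul_of_nonneg_right h19 d1
      _ = _ := by ring
  exact le_of_mul_le_mul_left (h16.trans h18) (by linarith)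

end Vale.Agent.P167.H135.Q
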