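import Vale.Agent.P167.FKA.All

/-!
# P167, general `q`: the density lemma

For two boundary conditions `η ≤ η'` (comparison of the connections) and a block `B` of squares the
ratio of the probabilities of a state of the block is an increasing function of the state. Hence all
nonnegative local functions of the block are controlled by the two extreme states (all closed, all open).
-/

namespace Vale.Agent.P167.H135.Q

open Finset Vale.Agent.P167.FK
open Vale.Agent.P167.H259 (four lattice_w f_markov f_fkg f_comp f_comp2 PC_mono cf_mono2)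
open Vale.Agent.P167.FKA (Zq_pos Loc Ex_congr Ex_mono)

variable {Q : ℝ} {D B : Finset (ℤ × ℤ)} {η η' : Cfg} {T T' : Finset (ℤ × ℤ)}

/-- The block `B` is in the state `T`. -/
def BT (B T : Finset (ℤ × ℤ)) : Set Cfg := {ω | ∀ v ∈ B, ω v = decide (v ∈ T)}

/-- `η'` dominates `η` in `D` in the sense of the connections. -/
def Dom (D : Finset (ℤ × ℤ)) (η η' : Cfg) : Prop :=
  ∀ S, S ⊆ D → ∀ a ∈ D, a ∉ S → PC (cf D η S) (pa a) (pb a) → PC (cf D η' S) (pa a) (pb a)

theorem Dom.of_le (h : ∀ v, η v = true → η' v = true) : Dom D η η' := fun S _ _ _ _ hp =>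
  PC_mono (cf_mono2 h S) hp

theorem Dom.refl : Dom D η η := fun _ _ _ _ _ h => h

theorem Dom.trans {η'' : Cfg} (h : Dom D η η') (h' : Dom D η' η'') : Dom D η η'' :=
  fun S hS a ha haS hp => h' S hS a ha haS (h S hS a ha haS hp)

theorem cf_BT (hB : B ⊆ D) (hT : T ⊆ B) {S : Finset (ℤ × ℤ)} :
    cf D η S ∈ BT B T ↔ S ∩ B = T := by
  constructor
  · intro h
    ext v
    rw [mem_inter]
    constructor
    · rintro ⟨h1, h2⟩
      have h3 := h v h2
      simp only [cf, hB h2, if_true, h1, decide_true] at h3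
      exact of_decide_eq_true h3.symm
    · intro h1
      have h3 := h v (hT h1)
      simp only [cf, hB (hT h1), if_true, h1, decide_true] at h3
      exact ⟨of_decide_eq_true h3, hT h1⟩
  · rintro rfl v hv
    simp [cf, hB hv, hv]

/-- The weight of the state `T` of the block `B`. -/
noncomputable def wB (Q : ℝ) (D : Finset (ℤ × ℤ)) (η : Cfg) (B T : Finset (ℤ × ℤ)) : ℝ :=
  ∑ S ∈ D.powerset, if S ∩ B = T then Q ^ LD D (cf D η S) else 0

theorem Pr_BT (hB : B ⊆ D) (hT : T ⊆ B) : Pr Q D η (BT B T) = wB Q D η B T / Zq Q D η := by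
  unfold Pr Ex wB
  congr 1
  refine Finset.sum_congr rfl fun S _ => ?_
  by_cases h : S ∩ B = T
  · rw [if_pos h, Set.indicator_of_mem ((cf_BT hB hT).2 h), Pi.one_apply, mul_one]
  · rw [if_neg h, Set.indicator_of_notMem fun h' => h ((cf_BT hB hT).1 h'), mul_zero]

theorem wB_pos (hQ : 0 < Q) (hB : B ⊆ D) (hT : T ⊆ B) : 0 < wB Q D η B T := by
  unfold wB
  refine Finset.sum_pos' (fun S _ => ?_) ⟨T, mem_powerset.2 (hT.trans hB), ?_⟩
  · split_ifs
    · exact (pow_pos hQ _).le
    · exact le_rfl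
  · rw [if_pos (inter_eq_left.2 hT)]
    exact pow_pos hQ _

theorem Pr_BT_pos (hQ : 0 < Q) (hB : B ⊆ D) (hT : T ⊆ B) : 0 < Pr Q D η (BT B T) := by
  rw [Pr_BT hB hT]
  exact div_pos (wB_pos hQ hB hT) (Zq_pos hQ D η)

/-- **The density lemma.** -/
theorem dens (hQ : 1 ≤ Q) (hη : Good η) (hη' : Good η') (hd : Dom D η η') (hB : B ⊆ D)
    (hT' : T' ⊆ B) (hTT : T ⊆ T') :
    Pr Q D η (BT B T') * Pr Q D η' (BT B T) ≤ Pr Q D η (BT B T) * Pr Q D η' (BT B T') := by
  classical
  have hQ0 : 0 < Q := by linarith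
  have hT := hTT.trans hT'
  have h := four (D := D) (fun S => if S ∩ B = T' then Q ^ LD D (cf D η S) else 0)
    (fun S => if S ∩ B = T then Q ^ LD D (cf D η' S) else 0)
    (fun S => if S ∩ B = T then Q ^ LD D (cf D η S) else 0)
    (fun S => if S ∩ B = T' then Q ^ LD D (cf D η' S) else 0) ?_ ?_ ?_ ?_ ?_
  · rw [Pr_BT hB hT', Pr_BT hB hT, Pr_BT hB hT, Pr_BT hB hT']
    have hZ := Zq_pos hQ0 D η
    have hZ' := Zq_pos hQ0 D η'
    rw [div_mul_div_comm, div_mul_div_comm]
    exact div_le_div_of_nonneg_right h (mul_pos hZ hZ').le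
  · intro S; dsimp only; split_ifs
    · exact (pow_pos hQ0 _).le
    · exact le_rfl
  · intro S; dsimp only; split_ifs
    · exact (pow_pos hQ0 _).le
    · exact le_rfl
  · intro S; dsimp only; split_ifs
    · exact (pow_pos hQ0 _).le
    · exact le_rfl
  · intro S; dsimp only; split_ifs
    · exact (pow_pos hQ0 _).le
    · exact le_rfl
  · intro s hs t ht
    by_cases h1 : s ∩ B = T'
    · by_cases h2 : t ∩ B = T
      · have e1 : s ∩ t ∩ B = T := by
          rw [inter_inter_distrib_right, h1, h2, inter_eq_right.2 hTT]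
        have e2 : (s ∪ t) ∩ B = T' := by
          rw [union_inter_distrib_right, h1, h2, union_eq_left.2 hTT]
        rw [if_pos h1, if_pos h2, if_pos e1, if_pos e2]
        exact lattice_w f_flip f_good hQ hη hη' hd hs ht
      · rw [if_neg h2, mul_zero]
        refine mul_nonneg ?_ ?_ <;> split_ifs <;> first | exact (pow_pos hQ0 _).le | exact le_rfl
    · rw [if_neg h1, zero_mul]
      refine mul_nonneg ?_ ?_ <;> split_ifs <;> first | exact (pow_pos hQ0 _).le | exact le_rfl

/-- The expectation of a function of the block. -/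
theorem Ex_block (hB : B ⊆ D) {F : Cfg → ℝ} (hF : Loc B F) (ζ : Cfg) :
    Ex Q D η F = ∑ T ∈ B.powerset, Pr Q D η (BT B T) * F (cf B ζ T) := by
  classical
  have h1 : ∀ T ∈ B.powerset, Pr Q D η (BT B T) * F (cf B ζ T) =
      (∑ S ∈ D.powerset, if S ∩ B = T then Q ^ LD D (cf D η S) * F (cf D η S) else 0) /
        Zq Q D η := by
    intro T hT
    rw [mem_powerset] at hT
    rw [Pr_BT hB hT, div_mul_eq_mul_div]
    congr 1
    unfold wB
    rw [Finset.sum_mul]
    refine Finset.sum_congr rfl fun S _ => ?_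
    split_ifs with h
    · congr 1
      refine hF _ _ fun v hv => ?_
      have h2 : v ∈ T ↔ v ∈ S := by
        rw [← h, mem_inter]
        exact ⟨fun h => h.1, fun h => ⟨h, hv⟩⟩
      simp [cf, hv, hB hv, h2]
    · rw [zero_mul]
  rw [Finset.sum_congr rfl h1, ← Finset.sum_div]
  unfold Ex
  congr 1
  rw [Finset.sum_comm]
  refine Finset.sum_congr rfl fun S _ => ?_
  rw [Finset.sum_ite_eq]
  rw [if_pos (mem_powerset.2 inter_subset_right)]

/-- The block `B` is influenced by at most the factor `1 + ε` by the change from `η` to `η'`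
(`η ≤ η'`). -/
structure BI (Q : ℝ) (D : Finset (ℤ × ℤ)) (η η' : Cfg) (B : Finset (ℤ × ℤ)) (ε : ℝ) : Prop where
  closed : Pr Q D η (BT B ∅) ≤ (1 + ε) * Pr Q D η' (BT B ∅)
  opened : Pr Q D η' (BT B B) ≤ (1 + ε) * Pr Q D η (BT B B)

/-- Every state of the block has comparable probabilities. -/
theorem BI.state {ε : ℝ} (h : BI Q D η η' B ε) (hQ : 1 ≤ Q) (hη : Good η) (hη' : Good η')
    (hd : Dom D η η') (hB : B ⊆ D) (hT : T ⊆ B) :
    Pr Q D η (BT B T) ≤ (1 + ε) * Pr Q D η' (BT B T) ∧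
      Pr Q D η' (BT B T) ≤ (1 + ε) * Pr Q D η (BT B T) := by
  have hQ0 : 0 < Q := by linarith
  have h1 := dens (T := ∅) hQ hη hη' hd hB hT (empty_subset T)
  have h2 := dens (T := T) hQ hη hη' hd hB Subset.rfl hT
  have p0 : 0 < Pr Q D η' (BT B ∅) := Pr_BT_pos hQ0 hB (empty_subset _)
  have p1 : 0 < Pr Q D η (BT B B) := Pr_BT_pos hQ0 hB Subset.rfl
  have q1 : 0 < Pr Q D η (BT B T) := Pr_BT_pos hQ0 hB hT
  have q2 : 0 < Pr Q D η' (BT B T) := Pr_BT_pos hQ0 hB hT
  constructor
  · have h3 : Pr Q D η (BT B T) * Pr Q D η' (BT B ∅) ≤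
        ((1 + ε) * Pr Q D η' (BT B T)) * Pr Q D η' (BT B ∅) := by
      calc _ ≤ Pr Q D η (BT B ∅) * Pr Q D η' (BT B T) := h1
        _ ≤ (1 + ε) * Pr Q D η' (BT B ∅) * Pr Q D η' (BT B T) :=
          mul_le_mul_of_nonneg_right h.closed q2.le
        _ = _ := by ring
    exact le_of_mul_le_mul_right h3 p0
  · have h3 : Pr Q D η' (BT B T) * Pr Q D η (BT B B) ≤
        ((1 + ε) * Pr Q D η (BT B T)) * Pr Q D η (BT B B) := by
      calc _ = Pr Q D η (BT B B) * Pr Q D η' (BT B T) := by ring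
        _ ≤ Pr Q D η (BT B T) * Pr Q D η' (BT B B) := h2
        _ ≤ Pr Q D η (BT B T) * ((1 + ε) * Pr Q D η (BT B B)) :=
          mul_le_mul_of_nonneg_left h.opened q1.le
        _ = _ := by ring
    exact le_of_mul_le_mul_right h3 p1

/-- Nonnegative functions of the block have comparable expectations. -/
theorem BI.ex_le {ε : ℝ} (h : BI Q D η η' B ε) (hQ : 1 ≤ Q) (hη : Good η) (hη' : Good η')
    (hd : Dom D η η') (hB : B ⊆ D) {F : Cfg → ℝ} (hF : Loc B F) (h0 : ∀ ω, 0 ≤ F ω) :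
    Ex Q D η F ≤ (1 + ε) * Ex Q D η' F ∧ Ex Q D η' F ≤ (1 + ε) * Ex Q D η F := by
  rw [Ex_block hB hF eta0, Ex_block (η := η') hB hF eta0, Finset.mul_sum, Finset.mul_sum]
  constructor
  · refine Finset.sum_le_sum fun T hT => ?_
    rw [← mul_assoc]
    exact mul_le_mul_of_nonneg_right (h.state hQ hη hη' hd hB (mem_powerset.1 hT)).1 (h0 _)
  · refine Finset.sum_le_sum fun T hT => ?_
    rw [← mul_assoc]
    exact mul_le_mul_of_nonneg_right (h.state hQ hη hη' hd hB (mem_powerset.1 hT)).2 (h0 _)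

/-- **All functions of the block**: the difference of the expectations. -/
theorem BI.abs_le {ε : ℝ} (h : BI Q D η η' B ε) (hQ : 1 ≤ Q) (hη : Good η) (hη' : Good η')
    (hd : Dom D η η') (hB : B ⊆ D) (hε : 0 ≤ ε) {F : Cfg → ℝ} (hF : Loc B F) :
    |Ex Q D η' F - Ex Q D η F| ≤ ε * Ex Q D η (fun ω => |F ω|) := by
  have hQ0 : 0 < Q := by linarith
  have hF' : Loc B fun ω => |F ω| := fun ω ω' h => by
    show |F ω| = |F ω'|
    rw [hF ω ω' h]
  rw [Ex_block (η := η') hB hF eta0, Ex_block (η := η) hB hF eta0, Ex_block (η := η) hB hF' eta0,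
    ← Finset.sum_sub_distrib, Finset.mul_sum]
  refine (Finset.abs_sum_le_sum_abs _ _).trans (Finset.sum_le_sum fun T hT => ?_)
  rw [← sub_mul, abs_mul, ← mul_assoc]
  refine mul_le_mul_of_nonneg_right ?_ (abs_nonneg _)
  obtain ⟨h1, h2⟩ := h.state hQ hη hη' hd hB (mem_powerset.1 hT)
  have q1 : 0 < Pr Q D η (BT B T) := Pr_BT_pos hQ0 hB (mem_powerset.1 hT)
  rw [_root_.abs_le]
  constructor
  · -- `p ≤ (1 + ε) p'` gives `p' - p ≥ - ε p' / (1) ≥ - ε p`
    rcases le_total (Pr Q D η (BT B T)) (Pr Q D η' (BT B T)) with h3 | h3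
    · have := mul_nonneg hε q1.le
      linarith
    · nlinarith
  · linarith

/-- **Total variation**: bounded functions of the block, only the closed state matters. -/
theorem tv_le {ε : ℝ} (hQ : 1 ≤ Q) (hη : Good η) (hη' : Good η') (hd : Dom D η η') (hB : B ⊆ D)
    (hε : 0 ≤ ε) (hc : (1 - ε) * Pr Q D η (BT B ∅) ≤ Pr Q D η' (BT B ∅)) {F : Cfg → ℝ}
    (hF : Loc B F) (h0 : ∀ ω, 0 ≤ F ω) :
    (1 - ε) * Ex Q D η F ≤ Ex Q D η' F := by
  have hQ0 : 0 < Q := by linarith
  rw [Ex_block (η := η') hB hF eta0, Ex_block (η := η) hB hF eta0, Finset.mul_sum]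
  refine Finset.sum_le_sum fun T hT => ?_
  rw [mem_powerset] at hT
  rw [← mul_assoc]
  refine mul_le_mul_of_nonneg_right ?_ (h0 _)
  have h1 := dens (T := ∅) hQ hη hη' hd hB hT (empty_subset T)
  have p0 : 0 < Pr Q D η (BT B ∅) := Pr_BT_pos hQ0 hB (empty_subset _)
  have q1 : 0 < Pr Q D η (BT B T) := Pr_BT_pos hQ0 hB hT
  have h3 : ((1 - ε) * Pr Q D η (BT B T)) * Pr Q D η (BT B ∅) ≤
      Pr Q D η' (BT B T) * Pr Q D η (BT B ∅) := by
    calc _ = Pr Q D η (BT B T) * ((1 - ε) * Pr Q D η (BT B ∅)) := by ring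
      _ ≤ Pr Q D η (BT B T) * Pr Q D η' (BT B ∅) := mul_le_mul_of_nonneg_left hc q1.le
      _ ≤ Pr Q D η (BT B ∅) * Pr Q D η' (BT B T) := h1
      _ = _ := by ring
  exact le_of_mul_le_mul_right h3 p0

/-- Monotonicity in the pair of boundary conditions. -/
theorem BI.mono {ε : ℝ} {ξ ξ' : Cfg} (h : BI Q D η η' B ε) (hQ : 1 ≤ Q) (hη : Good η)
    (hη' : Good η') (hξ : Good ξ) (hξ' : Good ξ') (h1 : Dom D η ξ) (h2 : Dom D ξ' η')
    (hB : B ⊆ D) (hε : 0 ≤ ε) : BI Q D ξ ξ' B ε := by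
  have hQ0 : 0 < Q := by linarith
  have key : ∀ {a b : Cfg}, Good a → Good b → Dom D a b →
      Pr Q D b (BT B ∅) ≤ Pr Q D a (BT B ∅) ∧ Pr Q D a (BT B B) ≤ Pr Q D b (BT B B) := by
    intro a b ha hb hab
    have hl : ∀ T : Finset (ℤ × ℤ), Loc D ((BT B T).indicator (1 : Cfg → ℝ)) := by
      intro T ω ω' hw
      have : ω ∈ BT B T ↔ ω' ∈ BT B T := by
        constructor
        · intro h v hv
          rw [← hw v (hB hv)]
          exact h v hv
        · intro h v hv
          rw [hw v (hB hv)]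
          exact h v hv
      by_cases hm : ω ∈ BT B T
      · rw [Set.indicator_of_mem hm, Set.indicator_of_mem (this.1 hm)]
        rfl
      · rw [Set.indicator_of_notMem hm, Set.indicator_of_notMem fun h => hm (this.2 h)]
    constructor
    · have h3 := f_comp2 Q D a b (fun ω => - (BT B ∅).indicator 1 ω) hQ ha hb hab ?_ ?_
      · rw [FKA.Ex_neg, FKA.Ex_neg] at h3
        exact neg_le_neg_iff.1 h3
      · intro ω ω' hw
        have : ω' ∈ BT B ∅ → ω ∈ BT B ∅ := by
          intro h v hv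
          have h4 := h v hv
          simp only [notMem_empty, decide_false] at h4 ⊢
          cases h5 : ω v
          · rfl
          · exact absurd (hw v h5) (by simp [h4])
        show -(BT B ∅).indicator (1 : Cfg → ℝ) ω ≤ -(BT B ∅).indicator (1 : Cfg → ℝ) ω'
        by_cases hm : ω' ∈ BT B ∅
        · rw [Set.indicator_of_mem hm, Set.indicator_of_mem (this hm)]
          exact le_rfl
        · rw [Set.indicator_of_notMem hm, neg_zero]
          have := FKA.ind_nonneg (BT B ∅) ω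
          linarith
      · intro ω ω' hw
        show - _ = - _
        rw [hl ∅ ω ω' hw]
    · refine f_comp2 Q D a b ((BT B B).indicator 1) hQ ha hb hab ?_ (hl B)
      intro ω ω' hw
      have : ω ∈ BT B B → ω' ∈ BT B B := by
        intro h v hv
        have h4 := h v hv
        simp only [hv, decide_true] at h4 ⊢
        exact hw v h4
      by_cases hm : ω ∈ BT B B
      · rw [Set.indicator_of_mem hm, Set.indicator_of_mem (this hm)]
        exact le_rfl
      · rw [Set.indicator_of_notMem hm]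
        exact FKA.ind_nonneg _ _
  obtain ⟨a1, a2⟩ := key hη hξ h1
  obtain ⟨b1, b2⟩ := key hξ' hη' h2
  have he : (0 : ℝ) ≤ 1 + ε := by linarith
  exact ⟨a1.trans (h.closed.trans (mul_le_mul_of_nonneg_left b1 he)),
    b2.trans (h.opened.trans (mul_le_mul_of_nonneg_left a2 he))⟩

end Vale.Agent.P167.H135.Q
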