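import Vale.Agent.P167.H135.Q.Iso

/-!
# P167, general `q`: exploration of the clusters of a box from inside

`np_ratio`: the ratio (under two boundary conditions `ξ ≤ ξ'`) of the event that no open path joins
the sites `X0` inside `Λ` with the sites `Far` is at most the ratio of a closed block.
`np_ratio_dual`: the dual statement for open blocks and dual paths (circuits of open squares).
-/

namespace Vale.Agent.P167.H135.Q

open Finset Relation Vale.Agent.P167.FK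
open Vale.Agent.P145.FB (PStep PConn)
open Vale.Agent.P167.H259 (four lattice_w f_markov f_fkg f_comp f_comp2 PC_mono cf_mono2)
open Vale.Agent.P167.FKA (Zq_pos Loc Ex_congr Ex_mono cf_out Op Cor cor_of_step step_of_cor
  mem_nb)
open Vale.Agent.P167.H519 (cf_in pa_even pb_even pa_cor pb_cor)

/-- The sites joined to `X0` by open squares of `Λ`. -/
def Kx (Λ : Finset (ℤ × ℤ)) (X0 : Set (ℤ × ℤ)) (ω : Cfg) : Set (ℤ × ℤ) :=
  {u | ∃ s ∈ X0, Even (s.1 + s.2) ∧ ReflTransGen (PStep (Op Λ ω)) s u}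

/-- No path from `X0` to `Far`. -/
def NP (Λ : Finset (ℤ × ℤ)) (X0 Far : Set (ℤ × ℤ)) : Set Cfg := {ω | ∀ u ∈ Kx Λ X0 ω, u ∉ Far}

variable {Q : ℝ} {A Λ b : Finset (ℤ × ℤ)} {ξ ξ' : Cfg} {W X0 Far : Set (ℤ × ℤ)}

theorem Kx_even {ω : Cfg} {u : ℤ × ℤ} (h : u ∈ Kx Λ X0 ω) : Even (u.1 + u.2) := by
  obtain ⟨s, -, hs, hsu⟩ := h
  have := FKA.rtg_parity hsu
  rw [Int.even_iff] at *
  omega

theorem Kx_step {ω : Cfg} {u u' : ℤ × ℤ} (h : u ∈ Kx Λ X0 ω) (h' : PStep (Op Λ ω) u u') :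
    u' ∈ Kx Λ X0 ω := by
  obtain ⟨s, hs, hse, hsu⟩ := h
  exact ⟨s, hs, hse, hsu.tail h'⟩

theorem Kx_congr {ω ω' : Cfg} (h : ∀ v ∈ FKA.nb Λ (Kx Λ X0 ω), ω v = ω' v) :
    Kx Λ X0 ω' = Kx Λ X0 ω := by
  apply Set.Subset.antisymm
  · rintro u ⟨s, hs, hse, hsu⟩
    induction hsu with
    | refl => exact ⟨s, hs, hse, ReflTransGen.refl⟩
    | @tail y y' _ hst ih =>
      have hc := cor_of_step hst
      have hm : (min y.1 y'.1, min y.2 y'.2) ∈ FKA.nb Λ (Kx Λ X0 ω) :=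
        mem_nb.2 ⟨hst.2.2.1, y, ih, hc.1⟩
      exact Kx_step ih ⟨hst.1, hst.2.1, hst.2.2.1, by rw [h _ hm]; exact hst.2.2.2⟩
  · rintro u ⟨s, hs, hse, hsu⟩
    induction hsu with
    | refl => exact ⟨s, hs, hse, ReflTransGen.refl⟩
    | @tail y y' hy hst ih =>
      have hc := cor_of_step hst
      have hm : (min y.1 y'.1, min y.2 y'.2) ∈ FKA.nb Λ (Kx Λ X0 ω) :=
        mem_nb.2 ⟨hst.2.2.1, y, ⟨s, hs, hse, hy⟩, hc.1⟩
      exact Kx_step ih ⟨hst.1, hst.2.1, hst.2.2.1, by rw [← h _ hm]; exact hst.2.2.2⟩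

theorem Kx_loc {ω ω' : Cfg} (h : ∀ v ∈ Λ, ω v = ω' v) : Kx Λ X0 ω' = Kx Λ X0 ω :=
  Kx_congr fun v hv => h v (mem_nb.1 hv).1

open Classical in
/-- The state found by the exploration. -/
noncomputable def st (Λ : Finset (ℤ × ℤ)) (X0 : Set (ℤ × ℤ)) (ω : Cfg) :
    Finset (ℤ × ℤ) × Finset (ℤ × ℤ) :=
  (FKA.nb Λ (Kx Λ X0 ω), (FKA.nb Λ (Kx Λ X0 ω)).filter (fun v => ω v = true))

theorem st_loc {ω ω' : Cfg} (h : ∀ v ∈ Λ, ω v = ω' v) : st Λ X0 ω' = st Λ X0 ω := by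
  unfold st
  rw [Kx_loc h]
  congr 1
  refine Finset.filter_congr fun v hv => ?_
  rw [h v (mem_nb.1 hv).1]

theorem np_loc {ω ω' : Cfg} (h : ∀ v ∈ Λ, ω v = ω' v) :
    ω ∈ NP Λ X0 Far ↔ ω' ∈ NP Λ X0 Far := by
  unfold NP
  simp only [Set.mem_ofPred_eq]
  rw [Kx_loc h]

open Classical in
/-- The possible states on the event of no connection. -/
noncomputable def Ist (A Λ : Finset (ℤ × ℤ)) (X0 Far : Set (ℤ × ℤ)) :
    Finset (Finset (ℤ × ℤ) × Finset (ℤ × ℤ)) :=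
  (A.powerset.filter (fun S => cf A eta0 S ∈ NP Λ X0 Far)).image
    (fun S => st Λ X0 (cf A eta0 S))

/-- **The partition** of the event of no connection. -/
theorem Pr_NP (hQ0 : 0 < Q) (hΛ : Λ ⊆ A) (ξ : Cfg) : Pr Q A ξ (NP Λ X0 Far) =
    ∑ p ∈ Ist A Λ X0 Far, Pr Q A ξ (BT p.1 p.2) := by
  classical
  have hcf : ∀ S v, v ∈ Λ → cf A ξ S v = cf A eta0 S v := fun S v hv => by
    rw [cf_in (hΛ hv), cf_in (hΛ hv)]
  have hN : ∀ S, cf A ξ S ∈ NP Λ X0 Far ↔ cf A eta0 S ∈ NP Λ X0 Far := fun S =>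
    np_loc fun v hv => hcf S v hv
  have hfib : ∀ p ∈ Ist A Λ X0 Far, Pr Q A ξ (BT p.1 p.2) =
      (∑ S ∈ (A.powerset.filter (fun S => cf A eta0 S ∈ NP Λ X0 Far)).filter
        (fun S => st Λ X0 (cf A eta0 S) = p), Q ^ LD A (cf A ξ S)) / Zq Q A ξ := by
    intro p hp
    unfold Ist at hp
    rw [mem_image] at hp
    obtain ⟨S0, hS0, rfl⟩ := hp
    rw [mem_filter] at hS0
    set V := FKA.nb Λ (Kx Λ X0 (cf A eta0 S0)) with hV
    have hVΛ : V ⊆ Λ := fun v hv => (mem_nb.1 hv).1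
    have hst2 : ∀ S, (FKA.nb Λ (Kx Λ X0 (cf A eta0 S))).filter (fun v => cf A eta0 S v = true) =
        S ∩ FKA.nb Λ (Kx Λ X0 (cf A eta0 S)) := by
      intro S
      ext v
      rw [mem_filter, mem_inter]
      constructor
      · rintro ⟨h1, h2⟩
        rw [cf_in (hΛ (mem_nb.1 h1).1)] at h2
        exact ⟨of_decide_eq_true h2, h1⟩
      · rintro ⟨h1, h2⟩
        refine ⟨h2, ?_⟩
        rw [cf_in (hΛ (mem_nb.1 h2).1)]
        exact decide_eq_true h1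
    have e0 : st Λ X0 (cf A eta0 S0) = (V, S0 ∩ V) := by
      unfold st
      rw [hst2]
    rw [e0]
    show Pr Q A ξ (BT V (S0 ∩ V)) = _
    rw [Pr_BT (hVΛ.trans hΛ) Finset.inter_subset_right]
    congr 1
    unfold wB
    rw [← Finset.sum_filter]
    refine Finset.sum_congr ?_ fun _ _ => rfl
    ext S
    rw [mem_filter, mem_filter, mem_filter]
    constructor
    · rintro ⟨h1, h2⟩
      have hag : ∀ v ∈ V, cf A eta0 S0 v = cf A eta0 S v := by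
        intro v hv
        rw [cf_in (hΛ (hVΛ hv)), cf_in (hΛ (hVΛ hv))]
        have h3 : v ∈ S ↔ v ∈ S0 := by
          have h4 : v ∈ S ∩ V ↔ v ∈ S0 ∩ V := by rw [h2]
          rw [mem_inter, mem_inter] at h4
          exact ⟨fun h => (h4.1 ⟨h, hv⟩).1, fun h => (h4.2 ⟨h, hv⟩).1⟩
        simp [h3]
      have hK : Kx Λ X0 (cf A eta0 S) = Kx Λ X0 (cf A eta0 S0) := Kx_congr hag
      refine ⟨⟨h1, ?_⟩, ?_⟩
      · show ∀ u ∈ Kx Λ X0 (cf A eta0 S), u ∉ Far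
        rw [hK]
        exact hS0.2
      · unfold st
        rw [hst2, hK, ← hV, h2]
    · rintro ⟨⟨h1, h2⟩, h3⟩
      refine ⟨h1, ?_⟩
      unfold st at h3
      rw [hst2, Prod.mk.injEq] at h3
      rw [h3.1] at h3
      exact h3.2
  rw [Finset.sum_congr rfl hfib, ← Finset.sum_div]
  unfold Pr Ex
  congr 1
  have hmap : ∀ S ∈ A.powerset.filter (fun S => cf A eta0 S ∈ NP Λ X0 Far),
      st Λ X0 (cf A eta0 S) ∈ Ist A Λ X0 Far := fun S hS => Finset.mem_image_of_mem _ hS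
  rw [Finset.sum_fiberwise_of_maps_to hmap (fun S => Q ^ LD A (cf A ξ S)), Finset.sum_filter]
  refine Finset.sum_congr rfl fun S _ => ?_
  by_cases h : cf A eta0 S ∈ NP Λ X0 Far
  · rw [if_pos h, Set.indicator_of_mem ((hN S).2 h), Pi.one_apply, mul_one]
  · rw [if_neg h, Set.indicator_of_notMem (fun h' => h ((hN S).1 h')), mul_zero]

theorem loc_BT {B V T : Finset (ℤ × ℤ)} (h : B ⊆ V) : Loc V ((BT B T).indicator 1) := by
  intro ω ω' hw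
  have : ω ∈ BT B T ↔ ω' ∈ BT B T := by
    constructor
    · intro h' v hv
      rw [← hw v (h hv)]
      exact h' v hv
    · intro h' v hv
      rw [hw v (h hv)]
      exact h' v hv
  by_cases hm : ω ∈ BT B T
  · rw [Set.indicator_of_mem hm, Set.indicator_of_mem (this.1 hm)]
    rfl
  · rw [Set.indicator_of_notMem hm, Set.indicator_of_notMem fun h => hm (this.2 h)]

/-- The environment of an exploration: outside of `A` the two boundary conditions are closed or in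
the connected set `W` near the sites which are not far. -/
structure EnvX (A Λ : Finset (ℤ × ℤ)) (Far W : Set (ℤ × ℤ)) (ξ ξ' : Cfg) : Prop where
  near : ∀ u : ℤ × ℤ, Even (u.1 + u.2) → u ∉ Far → ∀ a, Cor a u →
    a ∈ Λ ∨ a ∈ W ∨ (a ∉ A ∧ ξ a = false ∧ ξ' a = false)
  opn : ∀ w ∈ W, w ∉ A ∧ ξ w = true ∧ ξ' w = true
  con : ∀ w ∈ W, ∀ w' ∈ W, ∀ u u' : ℤ × ℤ, Even (u.1 + u.2) → Cor w u → Even (u'.1 + u'.2) →
    Cor w' u' → ReflTransGen (PStep {v | v ∉ A ∧ ξ v = true ∧ ξ' v = true}) u u'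

theorem EnvX.isl (h : EnvX A Λ Far W ξ ξ') (hΛ : Λ ⊆ A) {S0 : Finset (ℤ × ℤ)}
    (hN : cf A eta0 S0 ∈ NP Λ X0 Far) (S S' : Finset (ℤ × ℤ)) :
    Isl (st Λ X0 (cf A eta0 S0)).1 (st Λ X0 (cf A eta0 S0)).2 W (cf A ξ S) (cf A ξ' S') where
  iso := by
    intro v hv u hu hvu a hau
    show a ∈ FKA.nb Λ (Kx Λ X0 (cf A eta0 S0)) ∨ _
    change v ∈ (FKA.nb Λ (Kx Λ X0 (cf A eta0 S0))).filter (fun v => cf A eta0 S0 v = true) at hv
    rw [mem_filter, mem_nb] at hv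
    obtain ⟨⟨hvΛ, u', hu', hvu'⟩, hvo⟩ := hv
    have huK : u ∈ Kx Λ X0 (cf A eta0 S0) := by
      by_cases he : u' = u
      · rw [← he]; exact hu'
      · exact Kx_step hu' (step_of_cor (F := Op Λ (cf A eta0 S0)) ⟨hvΛ, hvo⟩ hvu' hvu
          (Kx_even hu') hu he)
    rcases h.near u hu (hN u huK) a hau with h1 | h1 | h1
    · exact Or.inl (mem_nb.2 ⟨h1, u, huK, hau⟩)
    · exact Or.inr (Or.inl h1)
    · refine Or.inr (Or.inr ⟨?_, ?_⟩)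
      · rw [cf_out h1.1]; exact h1.2.1
      · rw [cf_out h1.1]; exact h1.2.2
  opn := by
    intro w hw
    obtain ⟨h1, h2, h3⟩ := h.opn w hw
    refine ⟨fun h' => h1 (hΛ (mem_nb.1 h').1), ?_, ?_⟩
    · rw [cf_out h1]; exact h2
    · rw [cf_out h1]; exact h3
  con := by
    intro w hw w' hw' u u' h1 h2 h3 h4
    refine QM.rtg_mono' ?_ (h.con w hw w' hw' u u' h1 h2 h3 h4)
    rintro v ⟨hv1, hv2, hv3⟩
    refine ⟨fun h' => hv1 (hΛ (mem_nb.1 h').1), ?_, ?_⟩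
    · rw [cf_out hv1]; exact hv2
    · rw [cf_out hv1]; exact hv3

theorem EnvX.left (h : EnvX A Λ Far W ξ ξ') : EnvX A Λ Far W ξ ξ where
  near u hu hF a ha := by
    rcases h.near u hu hF a ha with h1 | h1 | h1
    · exact Or.inl h1
    · exact Or.inr (Or.inl h1)
    · exact Or.inr (Or.inr ⟨h1.1, h1.2.1, h1.2.1⟩)
  opn w hw := ⟨(h.opn w hw).1, (h.opn w hw).2.1, (h.opn w hw).2.1⟩
  con w hw w' hw' u u' h1 h2 h3 h4 := by
    refine QM.rtg_mono' ?_ (h.con w hw w' hw' u u' h1 h2 h3 h4)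
    rintro v ⟨hv1, hv2, hv3⟩
    exact ⟨hv1, hv2, hv2⟩

/-- **No connection against a closed block.** -/
theorem np_ratio (hQ : 1 ≤ Q) (hΛ : Λ ⊆ A) (hb : b ⊆ Λ) (hbX : ∀ v ∈ b, ∃ u ∈ X0,
    Even (u.1 + u.2) ∧ Cor v u) (hξ : Good ξ) (hξ' : Good ξ') (hd : Dom A ξ ξ')
    (h : EnvX A Λ Far W ξ ξ') :
    Pr Q A ξ' (NP Λ X0 Far) * Pr Q A ξ (BT b ∅) ≤ Pr Q A ξ (NP Λ X0 Far) * Pr Q A ξ' (BT b ∅) := by
  classical
  have hQ0 : 0 < Q := by linarith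
  rw [Pr_NP hQ0 hΛ, Pr_NP hQ0 hΛ, Finset.sum_mul, Finset.sum_mul]
  refine Finset.sum_le_sum fun p hp => ?_
  unfold Ist at hp
  rw [mem_image] at hp
  obtain ⟨S0, hS0, rfl⟩ := hp
  rw [mem_filter] at hS0
  set V := (st Λ X0 (cf A eta0 S0)).1 with hV
  set T := (st Λ X0 (cf A eta0 S0)).2 with hT
  have hVΛ : V ⊆ Λ := fun v hv => (mem_nb.1 hv).1
  have hTV : T ⊆ V := Finset.filter_subset _ _
  have hbV : b ⊆ V := by
    intro v hv
    obtain ⟨u, hu, hue, hvu⟩ := hbX v hv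
    exact mem_nb.2 ⟨hb hv, u, ⟨u, hu, hue, ReflTransGen.refl⟩, hvu⟩
  have h1 := iso_ratio (Q := Q) (W := W) hQ0 (hVΛ.trans hΛ) hTV hξ hξ'
    (fun S _ => h.isl hΛ hS0.2 S S) (fun S _ => h.left.isl hΛ hS0.2 S ∅)
  have c0 : 0 < Pr Q A ξ (BT V ∅) := Pr_BT_pos hQ0 (hVΛ.trans hΛ) (Finset.empty_subset _)
  have c1 : 0 < Pr Q A ξ' (BT V ∅) := Pr_BT_pos hQ0 (hVΛ.trans hΛ) (Finset.empty_subset _)
  have a0 : 0 < Pr Q A ξ (BT V T) := Pr_BT_pos hQ0 (hVΛ.trans hΛ) hTV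
  have h2 := tv_mul (ρ := Pr Q A ξ' (BT V ∅) / Pr Q A ξ (BT V ∅)) hQ hξ hξ' hd (hVΛ.trans hΛ)
    (by rw [div_mul_cancel₀ _ c0.ne']) (F := (BT b ∅).indicator 1) (loc_BT hbV)
    fun ω => FKA.ind_nonneg _ _
  have h3 : Pr Q A ξ' (BT V T) = Pr Q A ξ (BT V T) *
      (Pr Q A ξ' (BT V ∅) / Pr Q A ξ (BT V ∅)) := by
    rw [← mul_div_assoc, eq_div_iff c0.ne']
    exact h1
  rw [h3, mul_assoc]
  exact mul_le_mul_of_nonneg_left h2 a0.le

end Vale.Agent.P167.H135.Q
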