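import Vale.Agent.P167.H135.Q.Dens
import Vale.Agent.P167.QM.Defs

/-!
# P167, general `q`: isolated states and the event of no connection

`T ⊆ V` is isolated if the open squares `T` of the block `V` touch outside of `V` only closed
squares and squares of a connected outer set `W`. For an isolated state the ratio of the
probabilities under two boundary conditions is the one of the closed state. Consequence: the ratio
of the event of no connection (from a box inside `Λ` to the outside of `Λ`) is at most the one of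
the closed state of a smaller block.
-/

namespace Vale.Agent.P167.H135.Q

open Finset Relation Vale.Agent.P167.FK
open Vale.Agent.P145.FB (PStep PConn)
open Vale.Agent.P167.H259 (four lattice_w f_markov f_fkg f_comp f_comp2 PC_mono cf_mono2)
open Vale.Agent.P167.FKA (Zq_pos Loc Ex_congr Ex_mono cf_out Op Cor cor_of_step step_of_cor)
open Vale.Agent.P167.H519 (cf_in pa_even pb_even pa_cor pb_cor)

variable {Q : ℝ} {A V : Finset (ℤ × ℤ)} {ξ ξ' : Cfg} {T : Finset (ℤ × ℤ)} {W : Set (ℤ × ℤ)}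

/-- The open squares `T` of the block `V` touch outside of `V` only closed squares and squares
of the connected set `W` (in the configurations `ω` and `ω'`). -/
structure Isl (V T : Finset (ℤ × ℤ)) (W : Set (ℤ × ℤ)) (ω ω' : Cfg) : Prop where
  iso : ∀ v ∈ T, ∀ u : ℤ × ℤ, Even (u.1 + u.2) → Cor v u → ∀ a, Cor a u →
    a ∈ V ∨ a ∈ W ∨ (ω a = false ∧ ω' a = false)
  opn : ∀ w ∈ W, w ∉ V ∧ ω w = true ∧ ω' w = true
  con : ∀ w ∈ W, ∀ w' ∈ W, ∀ u u' : ℤ × ℤ, Even (u.1 + u.2) → Cor w u → Even (u'.1 + u'.2) →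
    Cor w' u' → ReflTransGen (PStep {v | v ∉ V ∧ ω v = true ∧ ω' v = true}) u u'

theorem Isl.symm {ω ω' : Cfg} (h : Isl V T W ω ω') : Isl V T W ω' ω where
  iso v hv u hu hc a ha := by
    rcases h.iso v hv u hu hc a ha with h1 | h1 | h1
    · exact Or.inl h1
    · exact Or.inr (Or.inl h1)
    · exact Or.inr (Or.inr ⟨h1.2, h1.1⟩)
  opn w hw := ⟨(h.opn w hw).1, (h.opn w hw).2.2, (h.opn w hw).2.1⟩
  con w hw w' hw' u u' h1 h2 h3 h4 := by
    refine QM.rtg_mono' ?_ (h.con w hw w' hw' u u' h1 h2 h3 h4)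
    rintro v ⟨hv1, hv2, hv3⟩
    exact ⟨hv1, hv3, hv2⟩

theorem cf_inside {ω : Cfg} {v : ℤ × ℤ} (h : v ∈ V) : cf V ω T v = decide (v ∈ T) := cf_in h

/-- Connections between the corners of the isolated squares do not depend on the outside. -/
theorem Isl.pc {ω ω' : Cfg} (h : Isl V T W ω ω') (hTV : T ⊆ V) {T0 : Finset (ℤ × ℤ)}
    (hT0 : T0 ⊆ T) {v : ℤ × ℤ} (hv : v ∈ T) (hpc : PC (cf V ω T0) (FK.pa v) (FK.pb v)) :
    PC (cf V ω' T0) (FK.pa v) (FK.pb v) := by
  set U : Set (ℤ × ℤ) := {u | Even (u.1 + u.2) ∧ ∃ t ∈ T, Cor t u} with hU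
  have hcon : ∀ w ∈ W, ∀ w' ∈ W, ∀ u u' : ℤ × ℤ, Even (u.1 + u.2) → Cor w u →
      Even (u'.1 + u'.2) → Cor w' u' → PC (cf V ω' T0) u u' := by
    intro w hw w' hw' u u' h1 h2 h3 h4
    refine QM.rtg_mono' ?_ (h.con w hw w' hw' u u' h1 h2 h3 h4)
    rintro a ⟨ha1, -, ha3⟩
    show cf V ω' T0 a = true
    rw [cf_out ha1]
    exact ha3
  have hWo : ∀ w ∈ W, cf V ω' T0 w = true := by
    intro w hw
    rw [cf_out (h.opn w hw).1]
    exact (h.opn w hw).2.2
  have key : ∀ y, PC (cf V ω T0) (FK.pa v) y → Even (y.1 + y.2) ∧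
      (y ∈ U → PC (cf V ω' T0) (FK.pa v) y) ∧
      (y ∉ U → ∃ w ∈ W, ∃ u : ℤ × ℤ, Even (u.1 + u.2) ∧ Cor w u ∧
        PC (cf V ω' T0) (FK.pa v) u) := by
    intro y hy
    induction hy with
    | refl => exact ⟨pa_even v, fun _ => ReflTransGen.refl, fun h' => absurd ⟨pa_even v, v, hv, pa_cor v⟩ h'⟩
    | @tail y y' _ hst ih =>
      obtain ⟨hye, ih1, ih2⟩ := ih
      have hye' : Even (y'.1 + y'.2) := (FKA.even_step hst).1 hye
      have hc := cor_of_step hst
      have ho : cf V ω T0 (min y.1 y'.1, min y.2 y'.2) = true := hst.2.2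
      set a : ℤ × ℤ := (min y.1 y'.1, min y.2 y'.2) with ha
      -- the square of a step with a corner in `U`
      have hsq : ∀ u ∈ U, Cor a u → (a ∈ T0 ∧ a ∈ V) ∨ a ∈ W := by
        rintro u ⟨hue, t, ht, htu⟩ hau
        rcases h.iso t ht u hue htu a hau with h1 | h1 | h1
        · left
          rw [cf_inside h1] at ho
          exact ⟨of_decide_eq_true ho, h1⟩
        · exact Or.inr h1
        · by_cases haV : a ∈ V
          · left
            rw [cf_inside haV] at ho
            exact ⟨of_decide_eq_true ho, haV⟩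
          · rw [cf_out haV, h1.1] at ho
            exact absurd ho (by simp)
      have hstep : ((a ∈ T0 ∧ a ∈ V) ∨ a ∈ W) → PStep (op (cf V ω' T0)) y y' := by
        intro h1
        refine ⟨hst.1, hst.2.1, ?_⟩
        show cf V ω' T0 a = true
        rcases h1 with h1 | h1
        · rw [cf_inside h1.2]
          exact decide_eq_true h1.1
        · exact hWo a h1
      refine ⟨hye', ?_, ?_⟩
      · intro hy'U
        by_cases hyU : y ∈ U
        · exact (ih1 hyU).tail (hstep (hsq y hyU hc.1))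
        · rcases hsq y' hy'U hc.2 with h1 | h1
          · exact absurd ⟨hye, a, hT0 h1.1, hc.1⟩ hyU
          · obtain ⟨w, hw, u, hue, hwu, hpu⟩ := ih2 hyU
            exact ReflTransGen.trans hpu (hcon w hw a h1 u y' hue hwu hye' hc.2)
      · intro hy'U
        by_cases hyU : y ∈ U
        · rcases hsq y hyU hc.1 with h1 | h1
          · exact absurd ⟨hye', a, hT0 h1.1, hc.2⟩ hy'U
          · exact ⟨a, h1, y', hye', hc.2, (ih1 hyU).tail (hstep (Or.inr h1))⟩
        · exact ih2 hyU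
  exact (key _ hpc).2.1 ⟨pb_even v, v, hv, pb_cor v⟩

/-- The number of the loops changes in the same way. -/
theorem LD_iso {ω ω' : Cfg} (hVA : V ⊆ A) (hω : Good ω) (hω' : Good ω') (h : Isl V T W ω ω')
    (hTV : T ⊆ V) : (LD A (cf V ω T) : ℤ) - LD A (cf V ω ∅) =
      LD A (cf V ω' T) - LD A (cf V ω' ∅) := by
  classical
  have key : ∀ T0 : Finset (ℤ × ℤ), T0 ⊆ T → (LD A (cf V ω T0) : ℤ) - LD A (cf V ω ∅) =
      LD A (cf V ω' T0) - LD A (cf V ω' ∅) := by
    intro T0
    induction T0 using Finset.induction_on with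
    | empty => intro _; simp
    | insert v T0 hvT0 ih =>
      intro hT0
      have hv : v ∈ T := hT0 (Finset.mem_insert_self _ _)
      have hT0' : T0 ⊆ T := fun a ha => hT0 (Finset.mem_insert_of_mem ha)
      have hvV : v ∈ V := hTV hv
      have hup : ∀ ω : Cfg, cf V ω (insert v T0) = Function.update (cf V ω T0) v true := by
        intro ω
        funext a
        by_cases hav : a = v
        · subst hav
          rw [Function.update_self, cf_inside hvV]
          simp
        · rw [Function.update_of_ne hav]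
          by_cases haV : a ∈ V
          · rw [cf_inside haV, cf_inside haV]
            simp [hav]
          · rw [cf_out haV, cf_out haV]
      have hcl : ∀ ω : Cfg, cf V ω T0 v = false := by
        intro ω
        rw [cf_inside hvV]
        simp [hvT0]
      have e1 := f_flip A (cf V ω T0) v (f_good.1 V ω T0 hω) (hVA hvV) (hcl ω)
      have e2 := f_flip A (cf V ω' T0) v (f_good.1 V ω' T0 hω') (hVA hvV) (hcl ω')
      have ih' := ih hT0'
      rw [hup ω, hup ω']
      by_cases hp : PC (cf V ω T0) (FK.pa v) (FK.pb v)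
      · have hp' := h.pc hTV hT0' hv hp
        have f1 := e1.1 hp
        have f2 := e2.1 hp'
        omega
      · have hp' : ¬ PC (cf V ω' T0) (FK.pa v) (FK.pb v) := fun h' => hp (h.symm.pc hTV hT0' hv h')
        have f1 := e1.2 hp
        have f2 := e2.2 hp'
        omega
  exact key T subset_rfl

/-- The weight of a state of the block as a sum over the outside. -/
theorem wB_out (hVA : V ⊆ A) (hTV : T ⊆ V) : wB Q A ξ V T =
    ∑ S ∈ (A \ V).powerset, Q ^ LD A (cf V (cf A ξ S) T) := by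
  classical
  unfold wB
  rw [← Finset.sum_filter]
  refine Finset.sum_bij' (fun S _ => S \ V) (fun S _ => S ∪ T) ?_ ?_ ?_ ?_ ?_
  · intro S hS
    rw [mem_filter, mem_powerset] at hS
    rw [mem_powerset]
    exact Finset.sdiff_subset_sdiff hS.1 subset_rfl
  · intro S hS
    rw [mem_powerset] at hS
    rw [mem_filter, mem_powerset]
    refine ⟨Finset.union_subset (hS.trans Finset.sdiff_subset) (hTV.trans hVA), ?_⟩
    ext a
    simp only [mem_inter, mem_union]
    constructor
    · rintro ⟨h1 | h1, h2⟩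
      · exact absurd h2 (mem_sdiff.1 (hS h1)).2
      · exact h1
    · intro h1
      exact ⟨Or.inr h1, hTV h1⟩
  · intro S hS
    rw [mem_filter] at hS
    ext a
    simp only [mem_union, mem_sdiff]
    constructor
    · rintro (h1 | h1)
      · exact h1.1
      · rw [← hS.2, mem_inter] at h1
        exact h1.1
    · intro h1
      by_cases h2 : a ∈ V
      · right
        rw [← hS.2, mem_inter]
        exact ⟨h1, h2⟩
      · exact Or.inl ⟨h1, h2⟩
  · intro S hS
    rw [mem_powerset] at hS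
    ext a
    simp only [mem_union, mem_sdiff]
    constructor
    · rintro ⟨h1 | h1, h2⟩
      · exact h1
      · exact absurd (hTV h1) h2
    · intro h1
      exact ⟨Or.inl h1, (mem_sdiff.1 (hS h1)).2⟩
  · intro S hS
    rw [mem_filter] at hS
    congr 2
    funext a
    by_cases h2 : a ∈ V
    · rw [cf_inside h2, cf_in (hVA h2)]
      have h3 : a ∈ S ↔ a ∈ T := by
        rw [← hS.2, mem_inter]
        exact ⟨fun h => ⟨h, h2⟩, fun h => h.1⟩
      simp [h3]
    · rw [cf_out h2]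
      by_cases h3 : a ∈ A
      · rw [cf_in h3, cf_in h3]
        simp [h2]
      · rw [cf_out h3, cf_out h3]

/-- **Isolated states**: the ratio is the one of the closed state. -/
theorem iso_ratio (hQ0 : 0 < Q) (hVA : V ⊆ A) (hTV : T ⊆ V) (hξ : Good ξ) (hξ' : Good ξ')
    (h1 : ∀ S ⊆ A \ V, Isl V T W (cf A ξ S) (cf A ξ' S))
    (h2 : ∀ S ⊆ A \ V, Isl V T W (cf A ξ S) (cf A ξ ∅)) :
    Pr Q A ξ' (BT V T) * Pr Q A ξ (BT V ∅) = Pr Q A ξ (BT V T) * Pr Q A ξ' (BT V ∅) := by
  set m : ℤ := (LD A (cf V (cf A ξ ∅) T) : ℤ) - LD A (cf V (cf A ξ ∅) ∅) with hm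
  have key : ∀ η : Cfg, (∀ S ⊆ A \ V, (LD A (cf V (cf A η S) T) : ℤ) -
      LD A (cf V (cf A η S) ∅) = m) → wB Q A η V T = Q ^ m * wB Q A η V ∅ := by
    intro η hη
    rw [wB_out hVA hTV, wB_out hVA (Finset.empty_subset _), Finset.mul_sum]
    refine Finset.sum_congr rfl fun S hS => ?_
    have h3 := hη S (mem_powerset.1 hS)
    rw [← zpow_natCast, ← zpow_natCast, ← zpow_add₀ hQ0.ne']
    congr 1
    omega
  have ha : ∀ S ⊆ A \ V, (LD A (cf V (cf A ξ S) T) : ℤ) - LD A (cf V (cf A ξ S) ∅) = m :=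
    fun S hS => LD_iso hVA (f_good.1 _ _ _ hξ) (f_good.1 _ _ _ hξ) (h2 S hS) hTV
  have hb : ∀ S ⊆ A \ V, (LD A (cf V (cf A ξ' S) T) : ℤ) - LD A (cf V (cf A ξ' S) ∅) = m := by
    intro S hS
    rw [← ha S hS]
    exact (LD_iso hVA (f_good.1 _ _ _ hξ) (f_good.1 _ _ _ hξ') (h1 S hS) hTV).symm
  rw [Pr_BT hVA hTV, Pr_BT hVA hTV, Pr_BT hVA (Finset.empty_subset _),
    Pr_BT hVA (Finset.empty_subset _), key ξ ha, key ξ' hb]
  ring

/-- Total variation with an arbitrary factor. -/
theorem tv_mul {Q : ℝ} {D B : Finset (ℤ × ℤ)} {η η' : Cfg} {ρ : ℝ} (hQ : 1 ≤ Q) (hη : Good η)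
    (hη' : Good η') (hd : Dom D η η') (hB : B ⊆ D)
    (hc : ρ * Pr Q D η (BT B ∅) ≤ Pr Q D η' (BT B ∅)) {F : Cfg → ℝ}
    (hF : Loc B F) (h0 : ∀ ω, 0 ≤ F ω) :
    ρ * Ex Q D η F ≤ Ex Q D η' F := by
  have hQ0 : 0 < Q := by linarith
  rw [Ex_block (η := η') hB hF eta0, Ex_block (η := η) hB hF eta0, Finset.mul_sum]
  refine Finset.sum_le_sum fun T hT => ?_
  rw [mem_powerset] at hT
  rw [← mul_assoc]
  refine mul_le_mul_of_nonneg_right ?_ (h0 _)
  have h1 := dens (T := ∅) hQ hη hη' hd hB hT (empty_subset T)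
  have p0 : 0 < Pr Q D η (BT B ∅) := Pr_BT_pos hQ0 hB (empty_subset _)
  have q1 : 0 < Pr Q D η (BT B T) := Pr_BT_pos hQ0 hB hT
  have h3 : (ρ * Pr Q D η (BT B T)) * Pr Q D η (BT B ∅) ≤
      Pr Q D η' (BT B T) * Pr Q D η (BT B ∅) := by
    calc _ = Pr Q D η (BT B T) * (ρ * Pr Q D η (BT B ∅)) := by ring
      _ ≤ Pr Q D η (BT B T) * Pr Q D η' (BT B ∅) := mul_le_mul_of_nonneg_left hc q1.le
      _ ≤ Pr Q D η (BT B ∅) * Pr Q D η' (BT B T) := h1
      _ = _ := by ring
  exact le_of_mul_le_mul_right h3 p0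

end Vale.Agent.P167.H135.Q
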