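import Mathlib

/-!
# P167, general `q`: bounded recursions for the tip factors (helper398's scheme)
-/

namespace Vale.Agent.P167.H135.Q

open Real

/-- The bound of the recursion. -/
noncomputable def Urec (c C1 M s : ℝ) : ℝ :=
  max (max 1 C1) ((2 * (2 * M) ^ (log (1 / c) / s)) ^ 2)

theorem Urec_one (c C1 M s : ℝ) : 1 ≤ Urec c C1 M s :=
  (le_max_left _ _).trans (le_max_left _ _)

/-- **Decreasing type.** -/
theorem rec_dec {a : ℕ → ℝ} {c C1 M s : ℝ} {p : ℕ} (ha : ∀ j, 0 < a j) (hc0 : 0 < c)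
    (hc1 : c ≤ 1) (hM : 1 ≤ M) (hs : 0 < s) (hp : 2 * p * log (1 / c) ≤ s)
    (h0 : ∀ j, j < p → a j ≤ C1 * a (j + 1))
    (h : ∀ j, p ≤ j → ∀ L : ℝ, 0 ≤ L →
      c ^ L * (a j - M * exp (-(s * L)) * a (j - p)) ≤ a (j + 1)) :
    ∀ j, a j ≤ Urec c C1 M s * a (j + 1) := by
  set U := Urec c C1 M s with hU
  have hU1 : 1 ≤ U := Urec_one c C1 M s
  have hU0 : 0 < U := by linarith
  have hUC : C1 ≤ U := (le_max_right _ _).trans (le_max_left _ _)
  have hU2 : (2 * (2 * M) ^ (log (1 / c) / s)) ^ 2 ≤ U := le_max_right _ _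
  have hlc : 0 ≤ log (1 / c) := log_nonneg (by rw [le_div_iff₀ hc0]; linarith)
  intro j
  induction j using Nat.strong_induction_on with
  | _ j ih =>
  by_cases hj : j < p
  · exact (h0 j hj).trans (mul_le_mul_of_nonneg_right hUC (ha _).le)
  · push Not at hj
    -- the product of the last `p` ratios
    have hprod : ∀ k, k ≤ j → a (j - k) ≤ U ^ k * a j := by
      intro k
      induction k with
      | zero => intro _; simp
      | succ k ihk =>
        intro hk
        have h1 := ih (j - (k + 1)) (by omega)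
        have h2 := ihk (by omega)
        have e : j - (k + 1) + 1 = j - k := by omega
        rw [e] at h1
        calc a (j - (k + 1)) ≤ U * a (j - k) := h1
          _ ≤ U * (U ^ k * a j) := mul_le_mul_of_nonneg_left h2 hU0.le
          _ = _ := by ring
    have h1 := hprod p hj
    have hUp : 1 ≤ U ^ p := one_le_pow₀ hU1
    have hB : 1 ≤ 2 * M * U ^ p := by nlinarith
    have hB0 : 0 < 2 * M * U ^ p := by linarith
    set L := log (2 * M * U ^ p) / s with hL
    have hL0 : 0 ≤ L := div_nonneg (log_nonneg hB) hs.le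
    have h2 := h j hj L hL0
    have hexp : exp (-(s * L)) = (2 * M * U ^ p)⁻¹ := by
      rw [hL, mul_div_cancel₀ _ hs.ne', exp_neg, exp_log hB0]
    have h3 : M * exp (-(s * L)) * a (j - p) ≤ a j / 2 := by
      rw [hexp]
      have h4 : M * (2 * M * U ^ p)⁻¹ * a (j - p) ≤ M * (2 * M * U ^ p)⁻¹ * (U ^ p * a j) :=
        mul_le_mul_of_nonneg_left h1 (by positivity)
      refine h4.trans (le_of_eq ?_)
      field_simp
    have hcL : 0 < c ^ L := rpow_pos_of_pos hc0 _
    have h4 : c ^ L * (a j / 2) ≤ a (j + 1) :=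
      (mul_le_mul_of_nonneg_left (by linarith) hcL.le).trans h2
    -- the bound of `c ^ (-L)`
    have h5 : (c ^ L)⁻¹ ≤ (2 * M) ^ (log (1 / c) / s) * U ^ ((1 : ℝ) / 2) := by
      have e1 : (c ^ L)⁻¹ = (2 * M * U ^ p) ^ (log (1 / c) / s) := by
        rw [← rpow_neg hc0.le, rpow_def_of_pos hc0, rpow_def_of_pos hB0, one_div, log_inv]
        congr 1
        rw [hL]
        ring
      rw [e1, mul_rpow (by positivity) (by positivity)]
      refine mul_le_mul_of_nonneg_left ?_ (by positivity)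
      rw [← rpow_natCast, ← rpow_mul hU0.le]
      refine rpow_le_rpow_of_exponent_le hU1 ?_
      rw [← mul_div_assoc, div_le_div_iff₀ hs (by norm_num)]
      linarith
    have h6 : 2 * (c ^ L)⁻¹ ≤ U := by
      have h7 : 0 ≤ 2 * (2 * M) ^ (log (1 / c) / s) := by positivity
      have h8 : 2 * (2 * M) ^ (log (1 / c) / s) ≤ U ^ ((1 : ℝ) / 2) := by
        rw [← sqrt_eq_rpow]
        exact le_sqrt_of_sq_le hU2
      have h9 : 0 ≤ U ^ ((1 : ℝ) / 2) := by positivity
      have h10 : U ^ ((1 : ℝ) / 2) * U ^ ((1 : ℝ) / 2) = U := by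
        rw [← rpow_add hU0]
        norm_num
      calc 2 * (c ^ L)⁻¹ ≤ 2 * ((2 * M) ^ (log (1 / c) / s) * U ^ ((1 : ℝ) / 2)) := by linarith
        _ = (2 * (2 * M) ^ (log (1 / c) / s)) * U ^ ((1 : ℝ) / 2) := by ring
        _ ≤ U ^ ((1 : ℝ) / 2) * U ^ ((1 : ℝ) / 2) := mul_le_mul_of_nonneg_right h8 h9
        _ = U := h10
    have h7 : a j = 2 * (c ^ L)⁻¹ * (c ^ L * (a j / 2)) := by
      field_simp
    rw [h7]
    have h8 : 0 ≤ 2 * (c ^ L)⁻¹ := by positivity
    exact (mul_le_mul_of_nonneg_left h4 h8).trans (mul_le_mul_of_nonneg_right h6 (ha _).le)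

/-- **Growing type.** -/
theorem rec_inc {w : ℕ → ℝ} {M C : ℝ} {m : ℕ} (hm : 1 ≤ m) (hw : ∀ j, 0 ≤ w j)
    (h0 : ∀ j, j < m → w j ≤ C) (h : ∀ j, m ≤ j → w j ^ 2 ≤ M * w (j - m)) :
    ∀ j, w j ≤ max C M := by
  intro j
  induction j using Nat.strong_induction_on with
  | _ j ih =>
  by_cases hj : j < m
  · exact (h0 j hj).trans (le_max_left _ _)
  · push Not at hj
    have h1 := ih (j - m) (by omega)
    have h2 := h j hj
    by_contra h3
    push Not at h3
    have h4 : M < w j := (le_max_right _ _).trans_lt h3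
    have h5 : w (j - m) < w j := h1.trans_lt h3
    have h6 := hw (j - m)
    have h7 : 0 < w j := by
      rcases lt_or_eq_of_le h6 with h | h
      · exact h.trans h5
      · rw [← h] at h5; exact h5
    rcases le_total 0 M with hM | hM
    · nlinarith
    · nlinarith

end Vale.Agent.P167.H135.Q
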